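import Mathlib

/-!
P032, measurable chromatic number of the plane: shared definitions (plane = `ℂ`).
Blocks are stated here as `Prop`s; each block file proves `theorem xxx : XxxStmt`.
-/

open MeasureTheory Set Filter Topology
open scoped ENNReal

namespace Vale.Agent.P032.M

/-- The unit vector at angle `t`. -/
noncomputable def e (t : ℝ) : ℂ := Complex.exp (t * Complex.I)

/-- A finite measure with the same null sets as Lebesgue measure. -/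
noncomputable def mu : Measure ℂ := (volume : Measure ℂ).toFinite

/-- Almost everywhere proper colouring. -/
def Proper {k : ℕ} (c : ℂ → Fin k) : Prop := ∀ᵐ x : ℂ, ∀ᵐ t : ℝ, c (x + e t) ≠ c x

/-- `x` sees `S`: a set of positive measure of directions leads from `x` into `S`. -/
def Sees (S : Set ℂ) (x : ℂ) : Prop := ¬ ∀ᵐ t : ℝ, x + e t ∉ S

/-- `v` is a Lebesgue density point of `S`. -/
def IsDens (S : Set ℂ) (v : ℂ) : Prop :=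
  Tendsto (fun r : ℝ => volume (S ∩ Metric.closedBall v r) / volume (Metric.closedBall v r))
    (𝓝[>] 0) (𝓝 1)

/-- Block J (1). -/
def AreaLowerStmt : Prop :=
  ∀ a b : ℝ, Real.sin (a - b) ≠ 0 → ∃ ρ : ℝ, 0 < ρ ∧ ∃ c₀ : ℝ≥0∞, c₀ ≠ 0 ∧
    ∀ (x : ℂ) (Q : Set (ℝ × ℝ)), MeasurableSet Q →
      Q ⊆ Ioo (a - ρ) (a + ρ) ×ˢ Ioo (b - ρ) (b + ρ) →
      c₀ * volume Q ≤ volume ((fun p : ℝ × ℝ => x + e p.1 + e p.2) '' Q)

/-- Block J (2). -/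
def SumNullStmt : Prop :=
  ∀ N : Set ℂ, volume N = 0 → ∀ᵐ p : ℝ × ℝ, e p.1 + e p.2 ∉ N

/-- Block LL. -/
def LimitStmt : Prop :=
  ∀ (k : ℕ) (c : ℕ → ℂ → Fin k), (∀ n, Measurable (c n)) → (∀ n, Proper (c n)) →
    ∃ c' : ℂ → Fin k, Measurable c' ∧ Proper c' ∧
      (∀ (A : Set ℂ) (i : Fin k), MeasurableSet A →
        (∀ᶠ n in atTop, ∀ᵐ x : ℂ, x ∈ A → c n x = i) → ∀ᵐ x : ℂ, x ∈ A → c' x = i) ∧
      (∀ (A : Set ℂ) (m : Fin k), MeasurableSet A →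
        (∀ n, ∀ᵐ x : ℂ, x ∈ A → c n x ≤ m) →
        (∀ᵐ x : ℂ, x ∈ A → c' x ≤ m) ∧
        ∀ r : ℝ≥0∞, (∀ᶠ n in atTop, mu (A ∩ {x | c n x = m}) ≤ r) →
          mu (A ∩ {x | c' x = m}) ≤ r)

/-- Block PLPC. -/
def PurityStmt : Prop :=
  ∀ (k : ℕ) (c : ℂ → Fin k), Measurable c → Proper c → ∀ (z : ℂ) (a : ℝ) (i : Fin k),
    (∀ j, j ≠ i →
      (∃ b : ℝ, Real.sin (a - b) ≠ 0 ∧ IsDens (c ⁻¹' {j}) (z + e a + e b)) ∨
      ∃ ρ : ℝ, 0 < ρ ∧ ∀ᵐ x : ℂ, x ∈ Metric.ball (z + e a) ρ → c x ≠ j) →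
    ∃ ρ : ℝ, 0 < ρ ∧ ∀ᵐ x : ℂ, x ∈ Metric.ball z ρ → c x ≠ i

/-- Theorem M: the output of MAX. -/
def DenseOpenStmt : Prop :=
  ∀ (k : ℕ) (c : ℂ → Fin k), Measurable c → Proper c →
    ∃ D : Fin k → Set ℂ, (∀ i, IsOpen (D i)) ∧ (∀ i, ∀ x ∈ D i, ∀ y ∈ D i, dist x y ≠ 1) ∧
      (∀ i j, i ≠ j → Disjoint (D i) (D j)) ∧ Dense (⋃ i, D i)

end Vale.Agent.P032.M
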