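import Vale.Agent.P032.M.Fub

/-!
P032, block LL: the limit lemma.
-/

open MeasureTheory Set Filter Topology
open scoped ENNReal RealInnerProductSpace

namespace Vale.Agent.P032.M

instance : IsFiniteMeasure mu := by unfold mu; infer_instance

theorem ae_mu : ae mu = ae (volume : Measure ℂ) := by unfold mu; exact ae_toFinite

theorem mu_ac : mu ≪ (volume : Measure ℂ) := toFinite_absolutelyContinuous _

theorem ac_mu : (volume : Measure ℂ) ≪ mu := absolutelyContinuous_toFinite _

/-- Weak convergence of bounded functions (tested against `L¹(mu)`). -/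
def WeakLim (g : ℕ → ℂ → ℝ) (φ : ℂ → ℝ) : Prop :=
  ∀ f : ℂ → ℝ, Integrable f mu →
    Tendsto (fun n => ∫ x, g n x * f x ∂mu) atTop (𝓝 (∫ x, φ x * f x ∂mu))

theorem integrable_mul_of_bdd {g f : ℂ → ℝ} {ν : Measure ℂ} (hg : Measurable g)
    (hb : ∀ x, |g x| ≤ 1) (hf : Integrable f ν) : Integrable (fun x => g x * f x) ν := by
  refine hf.mono (hg.aestronglyMeasurable.mul hf.aestronglyMeasurable) ?_
  refine Eventually.of_forall fun x => ?_
  rw [norm_mul, Real.norm_eq_abs]
  exact mul_le_of_le_one_left (norm_nonneg _) (hb x)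

theorem weakLim_of_L2 {g : ℕ → ℂ → ℝ} {φ : ℂ → ℝ} (hm : ∀ n, Measurable (g n))
    (hb : ∀ n x, |g n x| ≤ 1) (hφ : Measurable φ) (hφb : ∀ x, |φ x| ≤ 1)
    (h : ∀ S : Set ℂ, MeasurableSet S →
      Tendsto (fun n => ∫ x in S, g n x ∂mu) atTop (𝓝 (∫ x in S, φ x ∂mu))) :
    WeakLim g φ := by
  have key : ∀ (f : ℂ → ℝ), Integrable f mu →
      Tendsto (fun n => ∫ x, g n x * f x ∂mu) atTop (𝓝 (∫ x, φ x * f x ∂mu)) := by
    apply Integrable.induction
    · intro c S hS _
      have e1 : ∀ u : ℂ → ℝ, (∫ x, u x * (S.indicator (fun _ => c)) x ∂mu)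
          = (∫ x in S, u x ∂mu) * c := by
        intro u
        rw [← integral_mul_const, ← integral_indicator hS]
        congr 1
        ext x
        by_cases hx : x ∈ S <;> simp [hx]
      simp only [e1]
      exact (h S hS).mul_const c
    · intro f f' _ hf hf' h1 h2
      have e1 : ∀ u : ℂ → ℝ, Measurable u → (∀ x, |u x| ≤ 1) →
          (∫ x, u x * (f + f') x ∂mu) = (∫ x, u x * f x ∂mu) + ∫ x, u x * f' x ∂mu := by
        intro u hu hub
        rw [← integral_add (integrable_mul_of_bdd hu hub hf) (integrable_mul_of_bdd hu hub hf')]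
        congr 1
        ext x
        simp [mul_add]
      rw [e1 φ hφ hφb]
      simp only [fun n => e1 (g n) (hm n) (hb n)]
      exact h1.add h2
    · -- closedness
      rw [← isSeqClosed_iff_isClosed]
      intro F F0 hF hlim
      simp only [mem_ofPred_eq] at hF ⊢
      have hd : ∀ (u : ℂ → ℝ), Measurable u → (∀ x, |u x| ≤ 1) → ∀ m,
          |(∫ x, u x * F m x ∂mu) - ∫ x, u x * F0 x ∂mu| ≤ ‖F m - F0‖ := by
        intro u hu hub m
        rw [← integral_sub (integrable_mul_of_bdd hu hub (L1.integrable_coeFn _))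
          (integrable_mul_of_bdd hu hub (L1.integrable_coeFn _)), L1.norm_eq_integral_norm]
        refine (abs_integral_le_integral_abs).trans ?_
        refine integral_mono_ae ?_ (L1.integrable_coeFn _).norm ?_
        · exact ((integrable_mul_of_bdd hu hub (L1.integrable_coeFn _)).sub
            (integrable_mul_of_bdd hu hub (L1.integrable_coeFn _))).abs
        · filter_upwards [Lp.coeFn_sub (F m) F0] with x hx
          rw [hx, ← mul_sub, abs_mul, Pi.sub_apply, Real.norm_eq_abs]
          exact mul_le_of_le_one_left (abs_nonneg _) (hub x)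
      rw [Metric.tendsto_atTop]
      intro ε hε
      have hlim' := tendsto_iff_norm_sub_tendsto_zero.1 hlim
      obtain ⟨m, hm'⟩ := ((hlim'.eventually (gt_mem_nhds (show (0:ℝ) < ε / 3 by positivity)))).exists
      obtain ⟨N, hN⟩ := Metric.tendsto_atTop.1 (hF m) (ε / 3) (by positivity)
      refine ⟨N, fun n hn => ?_⟩
      have a1 := hd (g n) (hm n) (hb n) m
      have a2 := hd φ hφ hφb m
      have a3 := hN n hn
      rw [Real.dist_eq] at a3 ⊢
      rw [abs_le] at a1 a2
      rw [abs_lt] at a3 ⊢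
      constructor <;> linarith
    · intro f f' hff' _ h1
      have e1 : ∀ u : ℂ → ℝ, (∫ x, u x * f' x ∂mu) = ∫ x, u x * f x ∂mu := by
        intro u
        refine integral_congr_ae ?_
        filter_upwards [hff'] with x hx
        rw [hx]
      simp only [e1]
      exact h1
  exact key

theorem extract (g : ℕ → ℂ → ℝ) (hm : ∀ n, Measurable (g n)) (h0 : ∀ n x, 0 ≤ g n x)
    (h1 : ∀ n x, g n x ≤ 1) :
    ∃ φ : ℂ → ℝ, Measurable φ ∧ (∀ x, 0 ≤ φ x) ∧ (∀ x, φ x ≤ 1) ∧
      ∃ s : ℕ → ℕ, StrictMono s ∧ WeakLim (fun n => g (s n)) φ := by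
  have hb : ∀ n x, |g n x| ≤ 1 := fun n x => by rw [abs_of_nonneg (h0 n x)]; exact h1 n x
  have hL : ∀ n, MemLp (g n) 2 mu := fun n =>
    MemLp.of_bound (hm n).aestronglyMeasurable 1 (Eventually.of_forall fun x => by
      rw [Real.norm_eq_abs]; exact hb n x)
  let G : ℕ → Lp ℝ 2 mu := fun n => (hL n).toLp (g n)
  obtain ⟨C, hC⟩ : ∃ C : ℝ, ∀ n, ‖G n‖ ≤ C := by
    refine ⟨((mu univ) ^ ((2:ℝ≥0∞).toReal⁻¹) * ENNReal.ofReal 1).toReal, fun n => ?_⟩
    rw [Lp.norm_toLp]
    refine ENNReal.toReal_mono ?_ ?_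
    · refine ENNReal.mul_ne_top ?_ ENNReal.ofReal_ne_top
      exact ENNReal.rpow_ne_top_of_nonneg (by positivity) (measure_ne_top _ _)
    · exact eLpNorm_le_of_ae_bound (Eventually.of_forall fun x => by
        rw [Real.norm_eq_abs]; exact hb n x)
  let Λ : ℕ → WeakDual ℝ (Lp ℝ 2 mu) := fun n =>
    StrongDual.toWeakDual (InnerProductSpace.toDual ℝ (Lp ℝ 2 mu) (G n))
  have hΛ : ∀ n, Λ n ∈ WeakDual.toStrongDual ⁻¹' Metric.closedBall (0 : StrongDual ℝ (Lp ℝ 2 mu)) C := by
    intro n
    simp only [mem_preimage, Metric.mem_closedBall, dist_zero_right]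
    have : WeakDual.toStrongDual (Λ n) = InnerProductSpace.toDual ℝ (Lp ℝ 2 mu) (G n) := rfl
    rw [this, LinearIsometryEquiv.norm_map]
    exact hC n
  have : Fact ((2:ℝ≥0∞) ≠ ∞) := ⟨by norm_num⟩
  have : TopologicalSpace.SeparableSpace (Lp ℝ 2 mu) := inferInstance
  obtain ⟨L, _, s, hs, hlim⟩ := WeakDual.isSeqCompact_closedBall ℝ (Lp ℝ 2 mu) 0 C hΛ
  let ψ : Lp ℝ 2 mu := (InnerProductSpace.toDual ℝ (Lp ℝ 2 mu)).symm (WeakDual.toStrongDual L)
  have hψ : ∀ f : Lp ℝ 2 mu, Tendsto (fun n => ⟪G (s n), f⟫) atTop (𝓝 ⟪ψ, f⟫) := by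
    intro f
    have h2 := ((WeakDual.eval_continuous f).tendsto L).comp hlim
    have e1 : ∀ n, (Λ (s n)) f = ⟪G (s n), f⟫ := fun n => by
      rfl
    have e2 : L f = ⟪ψ, f⟫ := by
      simp [ψ]
    rw [← e2]
    refine h2.congr fun n => ?_
    exact e1 n
  -- convergence on measurable sets
  have hS : ∀ S : Set ℂ, MeasurableSet S →
      Tendsto (fun n => ∫ x in S, g (s n) x ∂mu) atTop (𝓝 (∫ x in S, ψ x ∂mu)) := by
    intro S hSm
    have h2 := hψ (indicatorConstLp 2 hSm (measure_ne_top _ _) (1:ℝ))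
    have e1 : ∀ u : Lp ℝ 2 mu, ⟪u, indicatorConstLp 2 hSm (measure_ne_top _ _) (1:ℝ)⟫
        = ∫ x in S, u x ∂mu := by
      intro u
      rw [real_inner_comm, L2.inner_indicatorConstLp_one]
    simp only [e1] at h2
    refine h2.congr fun n => ?_
    refine integral_congr_ae ?_
    exact ae_restrict_of_ae (MemLp.coeFn_toLp (hL (s n)))
  have hψi : Integrable ψ mu := (Lp.memLp ψ).integrable (by norm_num)
  have hgi : ∀ n, Integrable (g n) mu := fun n => (hL n).integrable (by norm_num)
  have hψ0 : 0 ≤ᵐ[mu] ψ := by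
    apply ae_nonneg_of_forall_setIntegral_nonneg hψi
    intro S hSm _
    refine ge_of_tendsto' (hS S hSm) fun n => ?_
    exact integral_nonneg fun x => h0 _ _
  have hψ1 : 0 ≤ᵐ[mu] fun x => 1 - ψ x := by
    apply ae_nonneg_of_forall_setIntegral_nonneg ((integrable_const 1).sub hψi)
    intro S hSm _
    have h3 : Tendsto (fun n => ∫ x in S, (1 - g (s n) x) ∂mu) atTop (𝓝 (∫ x in S, (1 - ψ x) ∂mu)) := by
      rw [integral_sub (integrable_const 1) hψi.integrableOn]
      have : ∀ n, ∫ x in S, (1 - g (s n) x) ∂mu = (∫ x in S, (1:ℝ) ∂mu) - ∫ x in S, g (s n) x ∂mu :=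
        fun n => integral_sub (integrable_const 1) (hgi _).integrableOn
      simp only [this]
      exact tendsto_const_nhds.sub (hS S hSm)
    refine ge_of_tendsto' h3 fun n => ?_
    exact integral_nonneg fun x => by have := h1 (s n) x; simp only [Pi.zero_apply]; linarith
  obtain ⟨ψ', hψ'm, hψ'⟩ := hψi.aestronglyMeasurable
  let φ : ℂ → ℝ := fun x => max 0 (min 1 (ψ' x))
  have hφm : Measurable φ := measurable_const.max (measurable_const.min hψ'm.measurable)
  have hφψ : φ =ᵐ[mu] ψ := by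
    filter_upwards [hψ', hψ0, hψ1] with x a1 a2 a3
    simp only [φ, ← a1]
    simp only [Pi.zero_apply] at a2 a3
    rw [min_eq_right (by linarith), max_eq_right a2]
  refine ⟨φ, hφm, fun x => le_max_left _ _, fun x => max_le zero_le_one (min_le_left _ _), s, hs, ?_⟩
  refine weakLim_of_L2 (fun n => hm _) (fun n x => hb _ _) hφm (fun x => ?_) ?_
  · rw [abs_of_nonneg (le_max_left _ _)]; exact max_le zero_le_one (min_le_left _ _)
  · intro S hSm
    have : ∫ x in S, φ x ∂mu = ∫ x in S, ψ x ∂mu := integral_congr_ae (ae_restrict_of_ae hφψ)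
    rw [this]
    exact hS S hSm

theorem extract_all {k : ℕ} (g : Fin k → ℕ → ℂ → ℝ) (hm : ∀ i n, Measurable (g i n))
    (h0 : ∀ i n x, 0 ≤ g i n x) (h1 : ∀ i n x, g i n x ≤ 1) :
    ∃ s : ℕ → ℕ, StrictMono s ∧ ∃ φ : Fin k → ℂ → ℝ, (∀ i, Measurable (φ i)) ∧
      (∀ i x, 0 ≤ φ i x) ∧ (∀ i x, φ i x ≤ 1) ∧ ∀ i, WeakLim (fun n => g i (s n)) (φ i) := by
  classical
  have key : ∀ T : Finset (Fin k), ∃ s : ℕ → ℕ, StrictMono s ∧ ∀ i ∈ T, ∃ φ : ℂ → ℝ,
      Measurable φ ∧ (∀ x, 0 ≤ φ x) ∧ (∀ x, φ x ≤ 1) ∧ WeakLim (fun n => g i (s n)) φ := by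
    intro T
    induction T using Finset.induction_on with
    | empty => exact ⟨id, strictMono_id, by simp⟩
    | insert j T hj ih =>
      obtain ⟨s, hs, hT⟩ := ih
      obtain ⟨φ, hφm, hφ0, hφ1, s', hs', hφ⟩ := extract (fun n => g j (s n)) (fun n => hm _ _)
        (fun n x => h0 _ _ _) (fun n x => h1 _ _ _)
      refine ⟨fun n => s (s' n), hs.comp hs', fun i hi => ?_⟩
      rcases Finset.mem_insert.1 hi with rfl | hi
      · exact ⟨φ, hφm, hφ0, hφ1, hφ⟩
      · obtain ⟨ψ, hψm, hψ0, hψ1, hψ⟩ := hT i hi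
        refine ⟨ψ, hψm, hψ0, hψ1, fun f hf => ?_⟩
        exact (hψ f hf).comp hs'.tendsto_atTop
  obtain ⟨s, hs, hT⟩ := key Finset.univ
  choose φ h2 h3 h4 h5 using fun i => hT i (Finset.mem_univ i)
  exact ⟨s, hs, φ, h2, h3, h4, h5⟩

/-- Weak convergence can be tested against finite absolutely continuous measures. -/
theorem WeakLim.tendsto_measure {h : ℕ → ℂ → ℝ} (hw : WeakLim h 0) (ν : Measure ℂ)
    [IsFiniteMeasure ν] (hν : ν ≪ volume) : Tendsto (fun n => ∫ x, h n x ∂ν) atTop (𝓝 0) := by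
  have hν' : ν ≪ mu := hν.trans ac_mu
  have h1 := hw (fun x => (ν.rnDeriv mu x).toReal) Measure.integrable_toReal_rnDeriv
  simp only [Pi.zero_apply, zero_mul, integral_zero] at h1
  refine h1.congr fun n => ?_
  rw [← integral_rnDeriv_smul hν']
  refine integral_congr_ae (Eventually.of_forall fun x => ?_)
  simp [mul_comm]

/-- The circle average over one period. -/
noncomputable def avg (f : ℂ → ℝ) (x : ℂ) : ℝ := ∫ t in Ioc (0:ℝ) (2 * Real.pi), f (x + e t)

/-- The product measure on pairs of directions. -/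
noncomputable def rho : Measure (ℝ × ℝ) :=
  (volume.restrict (Ioc (0:ℝ) (2 * Real.pi))).prod (volume.restrict (Ioc (0:ℝ) (2 * Real.pi)))

instance : IsFiniteMeasure rho := by unfold rho; infer_instance

theorem rho_ac : rho ≪ (volume : Measure (ℝ × ℝ)) := by
  unfold rho
  exact Measure.AbsolutelyContinuous.prod Measure.restrict_le_self.absolutelyContinuous
    Measure.restrict_le_self.absolutelyContinuous

theorem avg_sq (f : ℂ → ℝ) (x : ℂ) :
    avg f x ^ 2 = ∫ p, f (x + e p.1) * f (x + e p.2) ∂rho := by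
  unfold avg rho
  rw [integral_prod_mul (fun s => f (x + e s)) (fun t => f (x + e t)), sq]

theorem ind_le (R : ℝ) (x : ℂ) (s : ℝ) : (Metric.ball (0:ℂ) R).indicator (fun _ => (1:ℝ)) (x - e s) ≤
    (Metric.ball (0:ℂ) (R + 1)).indicator (fun _ => (1:ℝ)) x := by
  by_cases hx : x - e s ∈ Metric.ball (0:ℂ) R
  · have hx' : x ∈ Metric.ball (0:ℂ) (R + 1) := by
      simp only [Metric.mem_ball, dist_zero_right] at hx ⊢
      calc ‖x‖ = ‖(x - e s) + e s‖ := by rw [sub_add_cancel]
        _ ≤ ‖x - e s‖ + ‖e s‖ := norm_add_le _ _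
        _ < R + 1 := by rw [norm_e]; linarith
    rw [indicator_of_mem hx, indicator_of_mem hx']
  · rw [indicator_of_notMem hx]
    exact indicator_nonneg (fun _ _ => zero_le_one) _

theorem ind_nonneg (C : Set ℂ) (y : ℂ) : 0 ≤ C.indicator (fun _ => (1:ℝ)) y :=
  indicator_nonneg (fun _ _ => zero_le_one) y

theorem ind_int (R : ℝ) : Integrable ((Metric.ball (0:ℂ) R).indicator (fun _ => (1:ℝ)))
    (volume : Measure ℂ) :=
  (integrable_indicator_iff measurableSet_ball).2 (integrableOn_const measure_ball_lt_top.ne)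

theorem integral_avg_sq (R : ℝ) {B : Set ℂ} (hBR : B = Metric.ball (0:ℂ) R) {h : ℂ → ℝ}
    (hm : Measurable h) (hb : ∀ x, |h x| ≤ 1) :
    ∫ x in B, avg h x ^ 2 =
      ∫ y, h y * ∫ p, B.indicator (fun _ => (1:ℝ)) (y - e p.1) * h (y - e p.1 + e p.2) ∂rho := by
  have hB : MeasurableSet B := by rw [hBR]; exact measurableSet_ball
  have hBi : Measurable (B.indicator (fun _ => (1:ℝ))) := measurable_const.indicator hB
  have hBint : Integrable (B.indicator (fun _ => (1:ℝ))) (volume : Measure ℂ) := by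
    rw [hBR]; exact ind_int R
  have i1 : Integrable (fun q : ℂ × (ℝ × ℝ) => B.indicator (fun _ => (1:ℝ)) q.1 *
      (h (q.1 + e q.2.1) * h (q.1 + e q.2.2))) (volume.prod rho) := by
    have : Integrable (fun q : ℂ × (ℝ × ℝ) => B.indicator (fun _ => (1:ℝ)) q.1 * (1:ℝ))
        (volume.prod rho) := hBint.mul_prod (integrable_const 1)
    refine this.mono ?_ (Eventually.of_forall fun q => ?_)
    · exact Measurable.aestronglyMeasurable (by fun_prop)
    · have a0 : ‖h (q.1 + e q.2.1) * h (q.1 + e q.2.2)‖ ≤ ‖(1:ℝ)‖ := by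
        rw [norm_mul, norm_one, Real.norm_eq_abs, Real.norm_eq_abs]
        exact mul_le_one₀ (hb _) (abs_nonneg _) (hb _)
      rw [norm_mul, norm_mul (B.indicator (fun _ => (1:ℝ)) q.1)]
      exact mul_le_mul_of_nonneg_left a0 (norm_nonneg _)
  have i2 : Integrable (fun q : ℂ × (ℝ × ℝ) => h q.1 * (B.indicator (fun _ => (1:ℝ)) (q.1 - e q.2.1) *
      h (q.1 - e q.2.1 + e q.2.2))) (volume.prod rho) := by
    have : Integrable (fun q : ℂ × (ℝ × ℝ) => (Metric.ball (0:ℂ) (R+1)).indicator (fun _ => (1:ℝ)) q.1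
        * (1:ℝ)) (volume.prod rho) := (ind_int (R+1)).mul_prod (integrable_const 1)
    refine this.mono ?_ (Eventually.of_forall fun q => ?_)
    · exact Measurable.aestronglyMeasurable (by fun_prop)
    · rw [norm_mul, norm_mul, norm_mul, norm_one, mul_one]
      have a1 : ‖B.indicator (fun _ => (1:ℝ)) (q.1 - e q.2.1)‖ ≤
          ‖(Metric.ball (0:ℂ) (R+1)).indicator (fun _ => (1:ℝ)) q.1‖ := by
        rw [hBR, Real.norm_of_nonneg (ind_nonneg _ _), Real.norm_of_nonneg (ind_nonneg _ _)]
        exact ind_le R _ _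
      have a2 : ‖h q.1‖ ≤ 1 := hb _
      have a3 : ‖h (q.1 - e q.2.1 + e q.2.2)‖ ≤ 1 := hb _
      have a4 := mul_le_mul a2 (mul_le_mul a1 a3 (norm_nonneg _) (norm_nonneg _))
        (mul_nonneg (norm_nonneg _) (norm_nonneg _)) zero_le_one
      rwa [one_mul, mul_one] at a4
  calc ∫ x in B, avg h x ^ 2
      = ∫ x, B.indicator (fun _ => (1:ℝ)) x * avg h x ^ 2 := by
        rw [← integral_indicator hB]
        congr 1
        ext x
        by_cases hx : x ∈ B <;> simp [hx]
    _ = ∫ x, ∫ p, B.indicator (fun _ => (1:ℝ)) x * (h (x + e p.1) * h (x + e p.2)) ∂rho := by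
        congr 1
        ext x
        rw [avg_sq, integral_const_mul]
    _ = ∫ p, (∫ x, B.indicator (fun _ => (1:ℝ)) x * (h (x + e p.1) * h (x + e p.2))) ∂rho :=
        integral_integral_swap i1
    _ = ∫ p, (∫ x, h x * (B.indicator (fun _ => (1:ℝ)) (x - e p.1) * h (x - e p.1 + e p.2))) ∂rho := by
        congr 1
        ext p
        rw [← integral_sub_right_eq_self _ (e p.1)]
        congr 1
        ext x
        simp only [sub_add_cancel]
        ring
    _ = ∫ x, ∫ p, h x * (B.indicator (fun _ => (1:ℝ)) (x - e p.1) * h (x - e p.1 + e p.2)) ∂rho :=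
        (integral_integral_swap i2).symm
    _ = _ := by
        congr 1
        ext x
        rw [integral_const_mul]

/-- The kernel term. -/
noncomputable def ker (B : Set ℂ) (h : ℂ → ℝ) (y : ℂ) : ℝ :=
  ∫ p, B.indicator (fun _ => (1:ℝ)) (y - e p.1) * h (y - e p.1 + e p.2) ∂rho

theorem ker_tendsto (hJ : SumNullStmt) {h : ℕ → ℂ → ℝ} (hm : ∀ n, Measurable (h n))
    (hw : WeakLim h 0) {B : Set ℂ} (hB : MeasurableSet B) (y : ℂ) :
    Tendsto (fun n => ker B (h n) y) atTop (𝓝 0) := by
  let T : ℝ × ℝ → ℂ := fun p => y - e p.1 + e p.2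
  have hT : Measurable T := by fun_prop
  let S : Set (ℝ × ℝ) := {p | y - e p.1 ∈ B}
  have hS : MeasurableSet S := by
    have : Measurable (fun p : ℝ × ℝ => y - e p.1) := by fun_prop
    exact this hB
  let ν : Measure ℂ := Measure.map T (rho.restrict S)
  have hν : ν ≪ volume := by
    refine Measure.AbsolutelyContinuous.mk fun N hN hN0 => ?_
    rw [Measure.map_apply hT hN]
    have h0 : volume ((fun z => y + z) ⁻¹' N) = 0 := by
      rw [measure_preimage_add]; exact hN0
    have h1 := hJ _ h0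
    have h2 : ∀ᵐ p : ℝ × ℝ, e (p + (Real.pi, (0:ℝ))).1 + e (p + (Real.pi, (0:ℝ))).2 ∉
        (fun z => y + z) ⁻¹' N :=
      (measurePreserving_add_right (volume : Measure (ℝ × ℝ)) (Real.pi, (0:ℝ))).quasiMeasurePreserving.ae h1
    have h3 : volume (T ⁻¹' N) = 0 := by
      rw [ae_iff] at h2
      refine measure_mono_null (fun p hp => ?_) h2
      simp only [Prod.fst_add, Prod.snd_add, add_zero, e_add_pi, mem_preimage,
        mem_ofPred_eq, not_not]
      have : y + (-e p.1 + e p.2) = T p := by simp only [T]; ring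
      rw [this]; exact hp
    exact le_antisymm ((Measure.restrict_apply_le _ _).trans_eq (rho_ac h3)) bot_le
  have key : ∀ n, ker B (h n) y = ∫ x, h n x ∂ν := by
    intro n
    rw [integral_map hT.aemeasurable (hm n).aestronglyMeasurable, ← integral_indicator hS]
    unfold ker
    congr 1
    ext p
    by_cases hp : p ∈ S
    · have hp' : y - e p.1 ∈ B := hp
      rw [indicator_of_mem hp, indicator_of_mem hp', one_mul]
    · have hp' : y - e p.1 ∉ B := hp
      rw [indicator_of_notMem hp, indicator_of_notMem hp', zero_mul]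
  simp only [key]
  exact hw.tendsto_measure ν hν

theorem avg_sq_tendsto (hJ : SumNullStmt) {h : ℕ → ℂ → ℝ} (hm : ∀ n, Measurable (h n))
    (hb : ∀ n x, |h n x| ≤ 1) (hw : WeakLim h 0) (R : ℝ) :
    Tendsto (fun n => ∫ x in Metric.ball (0:ℂ) R, avg (h n) x ^ 2) atTop (𝓝 0) := by
  have e1 : ∀ n, ∫ x in Metric.ball (0:ℂ) R, avg (h n) x ^ 2 =
      ∫ y, h n y * ker (Metric.ball (0:ℂ) R) (h n) y := fun n =>
    integral_avg_sq R rfl (hm n) (hb n)
  simp only [e1]
  have hBi : Measurable ((Metric.ball (0:ℂ) R).indicator (fun _ => (1:ℝ))) :=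
    measurable_const.indicator measurableSet_ball
  have e2 : ∀ n y, |ker (Metric.ball (0:ℂ) R) (h n) y| ≤
      (Metric.ball (0:ℂ) (R + 1)).indicator (fun _ => (1:ℝ)) y * rho.real univ := by
    intro n y
    unfold ker
    rw [← Real.norm_eq_abs]
    refine norm_integral_le_of_norm_le_const (Eventually.of_forall fun p => ?_)
    rw [norm_mul, Real.norm_of_nonneg (ind_nonneg _ _)]
    calc _ ≤ (Metric.ball (0:ℂ) (R + 1)).indicator (fun _ => (1:ℝ)) y * 1 :=
          mul_le_mul (ind_le R _ _) (hb _ _) (abs_nonneg _) (ind_nonneg _ _)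
      _ = _ := mul_one _
  have h3 := tendsto_integral_of_dominated_convergence (μ := (volume : Measure ℂ))
    (F := fun n y => h n y * ker (Metric.ball (0:ℂ) R) (h n) y) (f := fun _ => (0:ℝ))
    (bound := fun y => (Metric.ball (0:ℂ) (R + 1)).indicator (fun _ => (1:ℝ)) y * rho.real univ)
    ?_ ?_ ?_ ?_
  · simpa using h3
  · intro n
    refine (hm n).aestronglyMeasurable.mul ?_
    apply AEStronglyMeasurable.integral_prod_right'
      (f := fun q : ℂ × (ℝ × ℝ) => (Metric.ball (0:ℂ) R).indicator (fun _ => (1:ℝ)) (q.1 - e q.2.1)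
        * h n (q.1 - e q.2.1 + e q.2.2))
    have := hm n
    exact Measurable.aestronglyMeasurable (by fun_prop)
  · exact (ind_int _).mul_const _
  · intro n
    refine Eventually.of_forall fun y => ?_
    rw [norm_mul]
    calc _ ≤ 1 * ((Metric.ball (0:ℂ) (R + 1)).indicator (fun _ => (1:ℝ)) y * rho.real univ) :=
          mul_le_mul (hb _ _) (e2 n y) (abs_nonneg _) zero_le_one
      _ = _ := one_mul _
  · refine Eventually.of_forall fun y => ?_
    have h4 := ker_tendsto hJ hm hw (measurableSet_ball (x := (0:ℂ)) (ε := R)) y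
    rw [tendsto_zero_iff_abs_tendsto_zero] at h4 ⊢
    refine squeeze_zero (fun n => abs_nonneg _) (fun n => ?_) h4
    simp only [Function.comp_apply]
    rw [abs_mul]
    exact mul_le_of_le_one_left (abs_nonneg _) (hb _ _)

theorem measurable_avg {f : ℂ → ℝ} (hf : Measurable f) : Measurable (avg f) := by
  unfold avg
  have : StronglyMeasurable (fun q : ℂ × ℝ => f (q.1 + e q.2)) :=
    Measurable.stronglyMeasurable (by fun_prop)
  exact (this.integral_prod_right' (ν := volume.restrict (Ioc (0:ℝ) (2 * Real.pi)))).measurable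

theorem integrableOn_dir {f : ℂ → ℝ} (hf : Measurable f) (hb : ∀ x, |f x| ≤ 1) (x : ℂ) :
    Integrable (fun t => f (x + e t)) (volume.restrict (Ioc (0:ℝ) (2 * Real.pi))) := by
  refine (integrable_const (1:ℝ)).mono ?_ (Eventually.of_forall fun t => ?_)
  · exact Measurable.aestronglyMeasurable (by fun_prop)
  · rw [norm_one]; exact hb _

theorem avg_nonneg {f : ℂ → ℝ} (h0 : ∀ x, 0 ≤ f x) (x : ℂ) : 0 ≤ avg f x :=
  integral_nonneg fun _ => h0 _

theorem abs_avg_le {f : ℂ → ℝ} (hb : ∀ x, |f x| ≤ 1) (x : ℂ) : |avg f x| ≤ 2 * Real.pi := by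
  unfold avg
  rw [← Real.norm_eq_abs]
  have := norm_integral_le_of_norm_le_const (μ := volume.restrict (Ioc (0:ℝ) (2 * Real.pi)))
    (f := fun t => f (x + e t)) (C := 1) (Eventually.of_forall fun t => by
      rw [Real.norm_eq_abs]; exact hb _)
  refine this.trans ?_
  simp [Real.two_pi_pos.le]

theorem WeakLim.tendsto_volume {h : ℕ → ℂ → ℝ} {φ : ℂ → ℝ} (hw : WeakLim h φ) {F : ℂ → ℝ}
    (hF : Integrable F (volume : Measure ℂ)) :
    Tendsto (fun n => ∫ x, h n x * F x) atTop (𝓝 (∫ x, φ x * F x)) := by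
  have h1 := hw (fun x => ((volume : Measure ℂ).rnDeriv mu x).toReal • F x)
    ((integrable_rnDeriv_smul_iff ac_mu).2 hF)
  have e1 : ∀ u : ℂ → ℝ, ∫ x, u x * (((volume : Measure ℂ).rnDeriv mu x).toReal • F x) ∂mu
      = ∫ x, u x * F x := by
    intro u
    rw [← integral_rnDeriv_smul (μ := (volume : Measure ℂ)) (ν := mu) ac_mu]
    refine integral_congr_ae (Eventually.of_forall fun x => ?_)
    simp only [smul_eq_mul]
    ring
  simp only [e1] at h1
  exact h1

theorem WeakLim.sub_self {h : ℕ → ℂ → ℝ} {φ : ℂ → ℝ} (hm : ∀ n, Measurable (h n))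
    (hb : ∀ n x, |h n x| ≤ 1) (hφ : Measurable φ) (hφb : ∀ x, |φ x| ≤ 1) (hw : WeakLim h φ) :
    WeakLim (fun n x => h n x - φ x) 0 := by
  intro f hf
  have e1 : ∀ n, ∫ x, (h n x - φ x) * f x ∂mu = (∫ x, h n x * f x ∂mu) - ∫ x, φ x * f x ∂mu := by
    intro n
    rw [← integral_sub (integrable_mul_of_bdd (hm n) (hb n) hf) (integrable_mul_of_bdd hφ hφb hf)]
    congr 1
    ext x
    ring
  simp only [e1, Pi.zero_apply, zero_mul, integral_zero]
  have := (hw f hf).sub_const (∫ x, φ x * f x ∂mu)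
  simpa using this

theorem mul_avg_zero (hJ : SumNullStmt) {g : ℕ → ℂ → ℝ} {φ : ℂ → ℝ} (hm : ∀ n, Measurable (g n))
    (h0 : ∀ n x, 0 ≤ g n x) (h1 : ∀ n x, g n x ≤ 1) (hφm : Measurable φ) (hφ0 : ∀ x, 0 ≤ φ x)
    (hφ1 : ∀ x, φ x ≤ 1) (hw : WeakLim g φ) (hz : ∀ n, ∀ᵐ x : ℂ, g n x * avg (g n) x = 0) :
    ∀ᵐ x : ℂ, φ x * avg φ x = 0 := by
  have hb : ∀ n x, |g n x| ≤ 1 := fun n x => by rw [abs_of_nonneg (h0 n x)]; exact h1 n x
  have hφb : ∀ x, |φ x| ≤ 1 := fun x => by rw [abs_of_nonneg (hφ0 x)]; exact hφ1 x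
  let h : ℕ → ℂ → ℝ := fun n x => g n x - φ x
  have hhm : ∀ n, Measurable (h n) := fun n => (hm n).sub hφm
  have hhb : ∀ n x, |h n x| ≤ 1 := fun n x => by
    rw [abs_le]
    have a1 := h0 n x
    have a2 := h1 n x
    have a3 := hφ0 x
    have a4 := hφ1 x
    simp only [h]
    constructor <;> linarith
  have hhw : WeakLim h 0 := hw.sub_self hm hb hφm hφb
  have havg : ∀ n x, avg (h n) x = avg (g n) x - avg φ x := fun n x => by
    unfold avg
    rw [← integral_sub (integrableOn_dir (hm n) (hb n) x) (integrableOn_dir hφm hφb x)]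
  have hzero : ∀ R : ℕ, ∫ x in Metric.ball (0:ℂ) R, φ x * avg φ x = 0 := by
    intro R
    set B := Metric.ball (0:ℂ) R with hB
    have hBm : MeasurableSet B := measurableSet_ball
    have hBf : volume B ≠ ∞ := measure_ball_lt_top.ne
    have hF : Integrable (B.indicator (avg φ)) (volume : Measure ℂ) := by
      rw [integrable_indicator_iff hBm]
      refine Integrable.mono (g := fun _ => 2 * Real.pi) (integrableOn_const hBf)
        (measurable_avg hφm).aestronglyMeasurable (Eventually.of_forall fun x => ?_)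
      rw [Real.norm_of_nonneg Real.two_pi_pos.le]
      exact abs_avg_le hφb x
    have e1 : ∀ u : ℂ → ℝ, ∫ x, u x * B.indicator (avg φ) x = ∫ x in B, u x * avg φ x := by
      intro u
      rw [← integral_indicator hBm]
      congr 1
      ext x
      by_cases hx : x ∈ B <;> simp [hx]
    have hlim := hw.tendsto_volume hF
    simp only [e1] at hlim
    have hI := avg_sq_tendsto hJ hhm hhb hhw R
    rw [← hB] at hI
    have hint : ∀ (u v : ℂ → ℝ), Measurable u → Measurable v → (∀ x, |u x| ≤ 1) → (∀ x, |v x| ≤ 1) →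
        IntegrableOn (fun x => u x * avg v x) B volume := by
      intro u v hu hv hub hvb
      refine Integrable.mono (g := fun _ => 2 * Real.pi) (integrableOn_const hBf)
        (hu.mul (measurable_avg hv)).aestronglyMeasurable (Eventually.of_forall fun x => ?_)
      rw [Real.norm_of_nonneg Real.two_pi_pos.le, norm_mul]
      calc _ ≤ 1 * (2 * Real.pi) := mul_le_mul (hub x) (abs_avg_le hvb x) (abs_nonneg _) zero_le_one
        _ = _ := one_mul _
    have hsq : ∀ n, IntegrableOn (fun x => avg (h n) x ^ 2) B volume := by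
      intro n
      have hci : Integrable (fun _ : ℂ => (2 * Real.pi) ^ 2) (volume.restrict B) :=
        integrableOn_const hBf
      refine hci.mono ((measurable_avg (hhm n)).pow_const 2).aestronglyMeasurable (Eventually.of_forall fun x => ?_)
      have hq : (0:ℝ) ≤ (2 * Real.pi) ^ 2 := by positivity
      rw [Real.norm_of_nonneg hq, norm_pow]
      exact pow_le_pow_left₀ (norm_nonneg (avg (h n) x)) (abs_avg_le (hhb n) x) 2
    have hbound : ∀ ε : ℝ, 0 < ε → ∀ n, ∫ x in B, g n x * avg φ x ≤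
        ε * volume.real B + (∫ x in B, avg (h n) x ^ 2) / ε := by
      intro ε hε n
      have s1 : ∫ x in B, g n x * avg φ x ≤ ∫ x in B, (ε + avg (h n) x ^ 2 / ε) := by
        refine integral_mono_ae (hint _ _ (hm n) hφm (hb n) hφb) ?_ ?_
        · have hci : Integrable (fun _ : ℂ => ε) (volume.restrict B) := integrableOn_const hBf
          exact hci.add ((hsq n).div_const ε)
        · filter_upwards [ae_restrict_of_ae (hz n)] with x hx
          have hx2 : g n x * avg φ x = - (g n x * avg (h n) x) := by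
            rw [havg, mul_sub, hx]; ring
          rw [hx2]
          have hx3 : - (g n x * avg (h n) x) ≤ |avg (h n) x| := by
            calc _ ≤ |g n x * avg (h n) x| := neg_le_abs _
              _ = |g n x| * |avg (h n) x| := abs_mul _ _
              _ ≤ _ := mul_le_of_le_one_left (abs_nonneg _) (hb n x)
          refine hx3.trans ?_
          rw [← sq_abs (avg (h n) x)]
          by_cases hc : |avg (h n) x| ≤ ε
          · have : 0 ≤ |avg (h n) x| ^ 2 / ε := by positivity
            linarith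
          · push Not at hc
            have : |avg (h n) x| ≤ |avg (h n) x| ^ 2 / ε := by
              rw [le_div_iff₀ hε, sq]
              exact mul_le_mul_of_nonneg_left hc.le (abs_nonneg _)
            linarith
      have hci : Integrable (fun _ : ℂ => ε) (volume.restrict B) := integrableOn_const hBf
      rw [integral_add hci ((hsq n).div_const ε), setIntegral_const,
        integral_div, smul_eq_mul, mul_comm (volume.real B)] at s1
      exact s1
    have hle : ∀ ε : ℝ, 0 < ε → ∫ x in B, φ x * avg φ x ≤ ε * volume.real B := by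
      intro ε hε
      have t1 : Tendsto (fun n => ε * volume.real B + (∫ x in B, avg (h n) x ^ 2) / ε) atTop
          (𝓝 (ε * volume.real B + 0 / ε)) := (hI.div_const ε).const_add _
      rw [zero_div, add_zero] at t1
      exact le_of_tendsto_of_tendsto' hlim t1 (hbound ε hε)
    have hge : 0 ≤ ∫ x in B, φ x * avg φ x := integral_nonneg fun x =>
      mul_nonneg (hφ0 x) (avg_nonneg hφ0 x)
    refine le_antisymm ?_ hge
    have t2 : Tendsto (fun ε : ℝ => ε * volume.real B) (𝓝[>] 0) (𝓝 (0 * volume.real B)) :=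
      (tendsto_id.mono_left nhdsWithin_le_nhds).mul_const _
    rw [zero_mul] at t2
    exact ge_of_tendsto t2 (by filter_upwards [self_mem_nhdsWithin] with ε hε using hle ε hε)
  have hae : ∀ R : ℕ, ∀ᵐ x : ℂ, x ∈ Metric.ball (0:ℂ) R → φ x * avg φ x = 0 := by
    intro R
    have hnn : 0 ≤ᵐ[volume.restrict (Metric.ball (0:ℂ) R)] fun x => φ x * avg φ x :=
      Eventually.of_forall fun x => mul_nonneg (hφ0 x) (avg_nonneg hφ0 x)
    have hii : Integrable (fun x => φ x * avg φ x) (volume.restrict (Metric.ball (0:ℂ) R)) := by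
      refine Integrable.mono (g := fun _ => 2 * Real.pi) (integrableOn_const measure_ball_lt_top.ne)
        (hφm.mul (measurable_avg hφm)).aestronglyMeasurable (Eventually.of_forall fun x => ?_)
      rw [Real.norm_of_nonneg Real.two_pi_pos.le, norm_mul]
      calc _ ≤ 1 * (2 * Real.pi) := mul_le_mul (hφb x) (abs_avg_le hφb x) (abs_nonneg _) zero_le_one
        _ = _ := one_mul _
    have := (integral_eq_zero_iff_of_nonneg_ae hnn hii).1 (hzero R)
    exact (ae_restrict_iff' measurableSet_ball).1 this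
  have hall : ∀ᵐ x : ℂ, ∀ R : ℕ, x ∈ Metric.ball (0:ℂ) R → φ x * avg φ x = 0 := ae_all_iff.2 hae
  filter_upwards [hall] with x hx
  obtain ⟨R, hR⟩ := exists_nat_gt ‖x‖
  exact hx R (by simpa using hR)

theorem e_add_int (t : ℝ) (n : ℤ) : e (t + n * (2 * Real.pi)) = e t := by
  unfold e
  push_cast
  rw [add_mul, Complex.exp_add]
  have : ((n : ℂ) * (2 * (Real.pi : ℂ)) * Complex.I) = n * (2 * Real.pi * Complex.I) := by ring
  rw [this, Complex.exp_int_mul_two_pi_mul_I, mul_one]

theorem ae_dir_of_avg_zero {f : ℂ → ℝ} (hf : Measurable f) (h0 : ∀ x, 0 ≤ f x)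
    (h1 : ∀ x, f x ≤ 1) {x : ℂ} (hx : avg f x = 0) : ∀ᵐ t : ℝ, f (x + e t) = 0 := by
  have hb : ∀ x, |f x| ≤ 1 := fun x => by rw [abs_of_nonneg (h0 x)]; exact h1 x
  have a1 := (integral_eq_zero_iff_of_nonneg (fun t => h0 (x + e t))
    (integrableOn_dir hf hb x)).1 hx
  have a2 : ∀ᵐ t : ℝ, t ∈ Ioc (0:ℝ) (2 * Real.pi) → f (x + e t) = 0 :=
    (ae_restrict_iff' measurableSet_Ioc).1 a1
  have a3 : ∀ n : ℤ, ∀ᵐ t : ℝ, t + n * (2 * Real.pi) ∈ Ioc (0:ℝ) (2 * Real.pi) →
      f (x + e t) = 0 := by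
    intro n
    have := (measurePreserving_add_right (volume : Measure ℝ)
      (n * (2 * Real.pi))).quasiMeasurePreserving.ae a2
    filter_upwards [this] with t ht
    rw [e_add_int] at ht
    exact ht
  have a4 := ae_all_iff.2 a3
  filter_upwards [a4] with t ht
  obtain ⟨n, hn, _⟩ := existsUnique_add_zsmul_mem_Ioc Real.two_pi_pos t 0
  refine ht n ?_
  simpa using hn

theorem avg_zero_of_ae_dir {f : ℂ → ℝ} {x : ℂ} (hx : ∀ᵐ t : ℝ, f (x + e t) = 0) : avg f x = 0 := by
  unfold avg
  refine integral_eq_zero_of_ae ?_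
  filter_upwards [ae_restrict_of_ae hx] with t ht
  simpa using ht

/-- Indicator of a colour class. -/
noncomputable def colInd {k : ℕ} (c : ℂ → Fin k) (i : Fin k) : ℂ → ℝ :=
  (c ⁻¹' {i}).indicator (fun _ => 1)

theorem measurable_colInd {k : ℕ} {c : ℂ → Fin k} (hc : Measurable c) (i : Fin k) :
    Measurable (colInd c i) :=
  measurable_const.indicator (hc (measurableSet_singleton i))

theorem colInd_nonneg {k : ℕ} (c : ℂ → Fin k) (i : Fin k) (x : ℂ) : 0 ≤ colInd c i x :=
  indicator_nonneg (fun _ _ => zero_le_one) _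

theorem colInd_le {k : ℕ} (c : ℂ → Fin k) (i : Fin k) (x : ℂ) : colInd c i x ≤ 1 := by
  unfold colInd
  by_cases hx : x ∈ c ⁻¹' {i}
  · rw [indicator_of_mem hx]
  · rw [indicator_of_notMem hx]; exact zero_le_one

theorem colInd_eq_zero {k : ℕ} {c : ℂ → Fin k} {i : Fin k} {x : ℂ} (h : c x ≠ i) :
    colInd c i x = 0 := indicator_of_notMem (by simpa using h) _

theorem colInd_eq_one {k : ℕ} {c : ℂ → Fin k} {i : Fin k} {x : ℂ} (h : c x = i) :
    colInd c i x = 1 := indicator_of_mem (by simpa using h) _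

theorem Proper.mul_avg {k : ℕ} {c : ℂ → Fin k} (hp : Proper c) (i : Fin k) :
    ∀ᵐ x : ℂ, colInd c i x * avg (colInd c i) x = 0 := by
  filter_upwards [hp] with x hx
  by_cases h : c x = i
  · rw [avg_zero_of_ae_dir, mul_zero]
    filter_upwards [hx] with t ht
    exact colInd_eq_zero (by rw [← h]; exact ht)
  · rw [colInd_eq_zero h, zero_mul]

/-- Measurable selection of the least good index. -/
theorem exists_min_pick {k : ℕ} (hk : 0 < k) (G : Fin k → Set ℂ) (hG : ∀ j, MeasurableSet (G j)) :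
    ∃ f : ℂ → Fin k, Measurable f ∧
      ∀ x, (∃ j, x ∈ G j) → x ∈ G (f x) ∧ ∀ j, x ∈ G j → f x ≤ j := by
  classical
  let p : ℕ → ℂ → Prop := fun n x => (∃ hn : n < k, x ∈ G ⟨n, hn⟩) ∨ (∀ j, x ∉ G j)
  let g : ℕ → ℂ → Fin k := fun n _ => if hn : n < k then ⟨n, hn⟩ else ⟨0, hk⟩
  have hp : ∀ x, ∃ n, p n x := by
    intro x
    by_cases h : ∃ j, x ∈ G j
    · obtain ⟨j, hj⟩ := h
      exact ⟨j, Or.inl ⟨j.2, hj⟩⟩
    · push Not at h
      exact ⟨0, Or.inr h⟩
  refine ⟨fun x => g (Nat.find (hp x)) x, ?_, ?_⟩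
  · apply Measurable.find
    · intro n; exact measurable_const
    · intro n
      by_cases hn : n < k
      · have : {x | p n x} = G ⟨n, hn⟩ ∪ ⋂ j, (G j)ᶜ := by
          ext x; simp [p, hn]
        rw [this]
        exact (hG _).union (MeasurableSet.iInter fun j => (hG j).compl)
      · have : {x | p n x} = ⋂ j, (G j)ᶜ := by
          ext x; simp [p, hn]
        rw [this]
        exact MeasurableSet.iInter fun j => (hG j).compl
  · rintro x ⟨j, hj⟩
    have hs := Nat.find_spec (hp x)
    rcases hs with ⟨hn, hx⟩ | h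
    · simp only [g, hn, dif_pos]
      refine ⟨hx, fun i hi => ?_⟩
      have := Nat.find_min' (hp x) (m := i) (Or.inl ⟨i.2, hi⟩)
      exact this
    · exact absurd hj (h j)

/-- If colour `j` is eventually absent from `A`, so is the weak limit. -/
theorem limit_zero {k : ℕ} {c : ℕ → ℂ → Fin k} {j : Fin k} {φ : ℂ → ℝ} (hφm : Measurable φ)
    (hφ0 : ∀ x, 0 ≤ φ x) (hφ1 : ∀ x, φ x ≤ 1) (hw : WeakLim (fun n => colInd (c n) j) φ)
    {A : Set ℂ} (hA : MeasurableSet A) (h : ∀ᶠ n in atTop, ∀ᵐ x : ℂ, x ∈ A → c n x ≠ j) :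
    ∀ᵐ x : ℂ, x ∈ A → φ x = 0 := by
  have hφb : ∀ x, |φ x| ≤ 1 := fun x => by rw [abs_of_nonneg (hφ0 x)]; exact hφ1 x
  have hAi : Integrable (A.indicator (fun _ => (1:ℝ))) mu :=
    (integrable_const 1).indicator hA
  have h1 := hw _ hAi
  have e1 : ∀ u : ℂ → ℝ, ∫ x, u x * A.indicator (fun _ => (1:ℝ)) x ∂mu = ∫ x in A, u x ∂mu := by
    intro u
    rw [← integral_indicator hA]
    congr 1
    ext x
    by_cases hx : x ∈ A <;> simp [hx]
  simp only [e1] at h1
  have h2 : Tendsto (fun n => ∫ x in A, colInd (c n) j x ∂mu) atTop (𝓝 0) := by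
    refine tendsto_const_nhds.congr' ?_
    filter_upwards [h] with n hn
    have hn' : ∀ᵐ x ∂mu, x ∈ A → c n x ≠ j := mu_ac.ae_le hn
    symm
    refine integral_eq_zero_of_ae ?_
    rw [EventuallyEq, ae_restrict_iff' hA]
    filter_upwards [hn'] with x hx hxA
    exact colInd_eq_zero (hx hxA)
  have h3 : ∫ x in A, φ x ∂mu = 0 := tendsto_nhds_unique h1 h2
  have hφi : Integrable φ (mu.restrict A) := by
    refine (integrable_const (1:ℝ)).mono hφm.aestronglyMeasurable
      (Eventually.of_forall fun x => ?_)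
    rw [norm_one]; exact hφb x
  have h4 := (integral_eq_zero_iff_of_nonneg hφ0 hφi).1 h3
  have h5 : ∀ᵐ x ∂mu, x ∈ A → φ x = 0 := (ae_restrict_iff' hA).1 h4
  exact ac_mu.ae_le h5

theorem limitStmt_of_sumNull (hJ : SumNullStmt) : LimitStmt := by
  intro k c hc hp
  have hk : 0 < k := lt_of_le_of_lt (Nat.zero_le _) (c 0 0).2
  obtain ⟨s, hs, φ, hφm, hφ0, hφ1, hw⟩ := extract_all (fun (i : Fin k) n => colInd (c n) i)
    (fun i n => measurable_colInd (hc n) i) (fun i n x => colInd_nonneg _ _ _)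
    (fun i n x => colInd_le _ _ _)
  have hφb : ∀ i x, |φ i x| ≤ 1 := fun i x => by rw [abs_of_nonneg (hφ0 i x)]; exact hφ1 i x
  -- the sum is one
  have hsum : ∀ᵐ x : ℂ, ∑ i, φ i x = 1 := by
    refine ac_mu.ae_le ?_
    have hint : ∀ i, Integrable (φ i) mu := fun i => by
      refine (integrable_const (1:ℝ)).mono (hφm i).aestronglyMeasurable
        (Eventually.of_forall fun x => ?_)
      rw [norm_one]; exact hφb i x
    have hintc : ∀ n i, Integrable (colInd (c n) i) mu := fun n i => by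
      refine (integrable_const (1:ℝ)).mono (measurable_colInd (hc n) i).aestronglyMeasurable
        (Eventually.of_forall fun x => ?_)
      rw [norm_one, Real.norm_of_nonneg (colInd_nonneg _ _ _)]; exact colInd_le _ _ _
    have hsi : Integrable (fun x => ∑ i, φ i x) mu := integrable_finsetSum _ fun i _ => hint i
    refine Integrable.ae_eq_of_forall_setIntegral_eq _ _ hsi (integrable_const (1:ℝ)) ?_
    intro S hS _
    have e1 : ∀ u : ℂ → ℝ, ∫ x, u x * S.indicator (fun _ => (1:ℝ)) x ∂mu = ∫ x in S, u x ∂mu := by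
      intro u
      rw [← integral_indicator hS]
      congr 1
      ext x
      by_cases hx : x ∈ S <;> simp [hx]
    have hSi : Integrable (S.indicator (fun _ => (1:ℝ))) mu := (integrable_const 1).indicator hS
    have h1 : ∀ i, Tendsto (fun n => ∫ x in S, colInd (c (s n)) i x ∂mu) atTop
        (𝓝 (∫ x in S, φ i x ∂mu)) := by
      intro i
      have := hw i _ hSi
      simp only [e1] at this
      exact this
    have h2 := tendsto_finset_sum Finset.univ fun i _ => h1 i
    rw [integral_finset_sum _ fun i _ => (hint i).integrableOn]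
    refine tendsto_nhds_unique h2 ?_
    refine tendsto_const_nhds.congr fun n => ?_
    rw [← integral_finset_sum _ fun i _ => (hintc _ i).integrableOn]
    congr 1
    ext x
    rw [Finset.sum_eq_single (c (s n) x)]
    · exact (colInd_eq_one rfl).symm
    · intro b _ hb
      exact colInd_eq_zero hb.symm
    · intro h; exact absurd (Finset.mem_univ _) h
  -- the new colouring
  obtain ⟨c', hc'm, hc'⟩ := exists_min_pick hk (fun j => {x | 0 < φ j x})
    (fun j => measurableSet_lt measurable_const (hφm j))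
  have hgood : ∀ x, ∑ i, φ i x = 1 → 0 < φ (c' x) x ∧ ∀ j, 0 < φ j x → c' x ≤ j := by
    intro x hx
    refine hc' x ?_
    by_contra hcon
    push Not at hcon
    have : ∑ i, φ i x ≤ 0 := Finset.sum_nonpos fun i _ => by
      have := hcon i
      simpa using this
    rw [hx] at this
    linarith
  refine ⟨c', hc'm, ?_, ?_, ?_⟩
  · -- proper
    have h1 : ∀ᵐ x : ℂ, ∀ i, φ i x * avg (φ i) x = 0 := ae_all_iff.2 fun i =>
      mul_avg_zero hJ (fun n => measurable_colInd (hc (s n)) i) (fun n x => colInd_nonneg _ _ _)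
        (fun n x => colInd_le _ _ _) (hφm i) (hφ0 i) (hφ1 i) (hw i) (fun n => (hp (s n)).mul_avg i)
    have h2 : ∀ᵐ x : ℂ, ∀ᵐ t : ℝ, ∑ i, φ i (x + e t) = 1 := ae_shift hsum
    filter_upwards [h1, h2, hsum] with x hx1 hx2 hx3
    have hx4 := (hgood x hx3).1
    have hx5 : avg (φ (c' x)) x = 0 := by
      rcases mul_eq_zero.1 (hx1 (c' x)) with h | h
      · exact absurd h hx4.ne'
      · exact h
    filter_upwards [hx2, ae_dir_of_avg_zero (hφm _) (hφ0 _) (hφ1 _) hx5] with t ht1 ht2 ht3
    have ht4 := (hgood _ ht1).1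
    rw [ht3, ht2] at ht4
    exact lt_irrefl _ ht4
  · -- constant on A
    intro A i hA h
    have h1 : ∀ᵐ x : ℂ, ∀ j, j ≠ i → x ∈ A → φ j x = 0 := by
      refine ae_all_iff.2 fun j => ?_
      by_cases hj : j = i
      · exact Eventually.of_forall fun x h => absurd hj h
      · have := limit_zero (hφm j) (hφ0 j) (hφ1 j) (hw j) hA (by
          filter_upwards [hs.tendsto_atTop.eventually h] with n hn
          filter_upwards [hn] with x hx hxA
          rw [hx hxA]; exact fun h => hj h.symm)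
        filter_upwards [this] with x hx _ hxA
        exact hx hxA
    filter_upwards [h1, hsum] with x hx1 hx2 hxA
    by_contra hcon
    have := (hgood x hx2).1
    rw [hx1 _ hcon hxA] at this
    exact lt_irrefl _ this
  · intro A m hA h
    have h1 : ∀ᵐ x : ℂ, ∀ j, m < j → x ∈ A → φ j x = 0 := by
      refine ae_all_iff.2 fun j => ?_
      by_cases hj : m < j
      · have := limit_zero (hφm j) (hφ0 j) (hφ1 j) (hw j) hA (Eventually.of_forall fun n => by
          filter_upwards [h (s n)] with x hx hxA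
          exact (lt_of_le_of_lt (hx hxA) hj).ne)
        filter_upwards [this] with x hx _ hxA
        exact hx hxA
      · exact Eventually.of_forall fun x h => absurd h hj
    refine ⟨?_, ?_⟩
    · filter_upwards [h1, hsum] with x hx1 hx2 hxA
      by_contra hcon
      push Not at hcon
      have := (hgood x hx2).1
      rw [hx1 _ hcon hxA] at this
      exact lt_irrefl _ this
    · intro r hr
      by_cases hrt : r = ∞
      · rw [hrt]; exact le_top
      set A' := A ∩ {x | c' x = m} with hA'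
      have hA'm : MeasurableSet A' := hA.inter (hc'm (measurableSet_singleton m))
      have h2 : ∀ᵐ x : ℂ, x ∈ A' → φ m x = 1 := by
        filter_upwards [h1, hsum] with x hx1 hx2 hxA
        have h3 := (hgood x hx2).2
        rw [← hx2]
        symm
        refine Finset.sum_eq_single m ?_ (fun h => absurd (Finset.mem_univ _) h)
        intro j _ hj
        rcases lt_or_gt_of_ne hj with hlt | hgt
        · have h4 := mt (h3 j) (by rw [hxA.2]; exact not_le.2 hlt)
          exact le_antisymm (not_lt.1 h4) (hφ0 j x)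
        · exact hx1 j hgt hxA.1
      have e1 : ∀ u : ℂ → ℝ, ∫ x, u x * A'.indicator (fun _ => (1:ℝ)) x ∂mu = ∫ x in A', u x ∂mu := by
        intro u
        rw [← integral_indicator hA'm]
        congr 1
        ext x
        by_cases hx : x ∈ A' <;> simp [hx]
      have h3 := hw m _ ((integrable_const (1:ℝ)).indicator hA'm)
      simp only [e1] at h3
      have h4 : ∫ x in A', φ m x ∂mu = mu.real A' := by
        have : ∫ x in A', φ m x ∂mu = ∫ x in A', (1:ℝ) ∂mu := by
          refine setIntegral_congr_ae hA'm ?_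
          exact mu_ac.ae_le h2
        rw [this]; simp
      rw [h4] at h3
      have h5 : mu.real A' ≤ r.toReal := by
        refine le_of_tendsto h3 ?_
        filter_upwards [hs.tendsto_atTop.eventually hr] with n hn
        have h6 : ∫ x in A', colInd (c (s n)) m x ∂mu = mu.real (A' ∩ {x | c (s n) x = m}) := by
          unfold colInd
          rw [setIntegral_indicator (hc (s n) (measurableSet_singleton m))]
          simp
          rfl
        rw [h6]
        refine ENNReal.toReal_mono hrt ((measure_mono ?_).trans hn)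
        exact inter_subset_inter_left _ inter_subset_left
      have h7 := ENNReal.ofReal_le_ofReal h5
      rwa [ENNReal.ofReal_toReal hrt, Measure.real, ENNReal.ofReal_toReal (measure_ne_top _ _)] at h7

end Vale.Agent.P032.M
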