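import Vale.Agent.P032.M.J

/-!
P032, measurable chromatic number: purity block.
-/

open MeasureTheory Set Filter Topology
open scoped ENNReal

namespace Vale.Agent.P032.M

theorem dist_e_le (s t : ℝ) : ‖e s - e t‖ ≤ |s - t| := by
  have h : ∀ x : ℝ, ‖e x - 1‖ ≤ |x| := by
    intro x
    have := Real.norm_exp_I_mul_ofReal_sub_one_le (x := x)
    unfold e
    rw [mul_comm]
    simpa using this
  have h2 : e s - e t = e t * (e (s - t) - 1) := by
    unfold e
    rw [mul_sub, ← Complex.exp_add]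
    push_cast
    ring_nf
  rw [h2, norm_mul, norm_e, one_mul]
  exact h _

theorem dens_compl {S : Set ℂ} (hS : MeasurableSet S) {v : ℂ} (h : IsDens S v) {ε : ℝ}
    (hε : 0 < ε) (hε1 : ε ≤ 1) : ∃ r₀ : ℝ, 0 < r₀ ∧ ∀ r, 0 < r → r < r₀ →
      volume (Metric.closedBall v r \ S) ≤ ENNReal.ofReal ε * volume (Metric.closedBall v r) := by
  unfold IsDens at h
  have h1 : ENNReal.ofReal (1 - ε) < 1 := by
    rw [← ENNReal.ofReal_one]
    exact (ENNReal.ofReal_lt_ofReal_iff one_pos).2 (by linarith)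
  have h2 := (tendsto_order.1 h).1 _ h1
  rw [eventually_nhdsWithin_iff, Metric.eventually_nhds_iff] at h2
  obtain ⟨r₀, hr₀, h3⟩ := h2
  refine ⟨r₀, hr₀, fun r hr hrr₀ => ?_⟩
  have h4 := h3 (show dist r 0 < r₀ by rw [Real.dist_eq, sub_zero, abs_of_pos hr]; exact hrr₀) hr
  set V := volume (Metric.closedBall v r) with hV
  have hVtop : V ≠ ⊤ := (isCompact_closedBall v r).measure_lt_top.ne
  have hV0 : V ≠ 0 := (Metric.measure_closedBall_pos volume v hr).ne'
  have h5 : ENNReal.ofReal (1 - ε) * V ≤ volume (S ∩ Metric.closedBall v r) := by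
    rw [ENNReal.lt_div_iff_mul_lt (Or.inl hV0) (Or.inl hVtop)] at h4
    exact h4.le
  have h6 : volume (S ∩ Metric.closedBall v r) + volume (Metric.closedBall v r \ S) = V := by
    rw [inter_comm]; exact measure_inter_add_diff _ hS
  have h7 : ENNReal.ofReal (1 - ε) * V + volume (Metric.closedBall v r \ S) ≤
      ENNReal.ofReal (1 - ε) * V + ENNReal.ofReal ε * V := by
    calc ENNReal.ofReal (1 - ε) * V + volume (Metric.closedBall v r \ S)
        ≤ volume (S ∩ Metric.closedBall v r) + volume (Metric.closedBall v r \ S) := by gcongr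
      _ = V := h6
      _ = ENNReal.ofReal (1 - ε) * V + ENNReal.ofReal ε * V := by
        rw [← add_mul, ← ENNReal.ofReal_add (by linarith) hε.le]
        simp
  exact (ENNReal.add_le_add_iff_left (ENNReal.mul_ne_top ENNReal.ofReal_ne_top hVtop)).1 h7

/-- (PL) -/
theorem purity_local {k : ℕ} {c : ℂ → Fin k} (hc : Measurable c) (hp : Proper c) {z : ℂ} {a b : ℝ}
    {j : Fin k} (hab : Real.sin (a - b) ≠ 0) (hd : IsDens (c ⁻¹' {j}) (z + e a + e b))
    {κ : ℝ} (hκ : 0 < κ) :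
    ∃ ρ₀ : ℝ, 0 < ρ₀ ∧ ∀ ρ, 0 < ρ → ρ ≤ ρ₀ → ∀ᵐ x : ℂ, x ∈ Metric.ball z ρ →
      volume (Ioo (a - ρ) (a + ρ) ∩ {s | c (x + e s) = j}) ≤ ENNReal.ofReal (κ * ρ) := by
  obtain ⟨ρ₁, hρ₁, c₀, hc₀, harea⟩ := areaLower a b hab
  -- a real positive lower bound for c₀
  obtain ⟨c₁, hc₁, hc₁c₀⟩ : ∃ c₁ : ℝ, 0 < c₁ ∧ ENNReal.ofReal c₁ ≤ c₀ := by
    obtain ⟨q, hq, hq2⟩ := ENNReal.lt_iff_exists_nnreal_btwn.1 (pos_iff_ne_zero.2 hc₀)
    refine ⟨q, by exact_mod_cast hq, ?_⟩
    rw [ENNReal.ofReal_coe_nnreal]; exact hq2.le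
  have hpi := Real.pi_pos
  let ε : ℝ := min 1 (2 * c₁ * κ / (9 * Real.pi))
  have hε : 0 < ε := lt_min one_pos (by positivity)
  have hε1 : ε ≤ 1 := min_le_left _ _
  have hε2 : ε * (9 * Real.pi) ≤ 2 * c₁ * κ := by
    have : ε ≤ 2 * c₁ * κ / (9 * Real.pi) := min_le_right _ _
    rwa [le_div_iff₀ (by positivity)] at this
  obtain ⟨r₀, hr₀, hr⟩ := dens_compl (hc (measurableSet_singleton j)) hd hε hε1
  refine ⟨min ρ₁ (r₀ / 6), lt_min hρ₁ (by linarith), fun ρ hρ hρle => ?_⟩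
  have hρ1 : ρ ≤ ρ₁ := hρle.trans (min_le_left _ _)
  have hρ2 : ρ ≤ r₀ / 6 := hρle.trans (min_le_right _ _)
  have h3 := hr (3 * ρ) (by linarith) (by linarith)
  have hshift := ae_shift hp
  filter_upwards [hshift] with x hx hxb
  set P : Set ℝ := Ioo (a - ρ) (a + ρ) ∩ {s | c (x + e s) = j} with hP
  have hPm : MeasurableSet P := by
    apply measurableSet_Ioo.inter
    have : Measurable (fun s : ℝ => c (x + e s)) := by
      apply hc.comp; fun_prop
    exact this (measurableSet_singleton j)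
  let Q : Set (ℝ × ℝ) := (P ×ˢ Ioo (b - ρ) (b + ρ)) ∩ {p | c (x + e p.1 + e p.2) ≠ j}
  have hQm : MeasurableSet Q := by
    apply (hPm.prod measurableSet_Ioo).inter
    have : Measurable (fun p : ℝ × ℝ => c (x + e p.1 + e p.2)) := by
      apply hc.comp; fun_prop
    exact (this (measurableSet_singleton j)).compl
  have hQvol : volume Q = volume P * ENNReal.ofReal (2 * ρ) := by
    have h1 : volume (P ×ˢ Ioo (b - ρ) (b + ρ)) = volume P * ENNReal.ofReal (2 * ρ) := by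
      rw [Measure.volume_eq_prod, Measure.prod_prod, Real.volume_Ioo]
      congr 2; ring
    rw [← h1]
    apply measure_congr
    have h2 : ∀ᵐ p : ℝ × ℝ, p ∈ P ×ˢ Ioo (b - ρ) (b + ρ) → c (x + e p.1 + e p.2) ≠ j := by
      rw [Measure.volume_eq_prod, Measure.ae_prod_iff_ae_ae]
      · filter_upwards [hx] with s hs
        filter_upwards [hs] with t ht hmem hj
        exact ht (hj.trans hmem.1.2.symm)
      · have e1 : MeasurableSet (P ×ˢ Ioo (b - ρ) (b + ρ)) := hPm.prod measurableSet_Ioo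
        have e2 : MeasurableSet {p : ℝ × ℝ | c (x + e p.1 + e p.2) ≠ j} := by
          have : Measurable (fun p : ℝ × ℝ => c (x + e p.1 + e p.2)) := by
            apply hc.comp; fun_prop
          exact (this (measurableSet_singleton j)).compl
        have : {p : ℝ × ℝ | p ∈ P ×ˢ Ioo (b - ρ) (b + ρ) → c (x + e p.1 + e p.2) ≠ j} =
            (P ×ˢ Ioo (b - ρ) (b + ρ))ᶜ ∪ {p : ℝ × ℝ | c (x + e p.1 + e p.2) ≠ j} := by
          ext p
          simp only [mem_setOf_eq, mem_union, mem_compl_iff]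
          tauto
        rw [this]
        exact e1.compl.union e2
    filter_upwards [h2] with p hp2
    apply propext
    constructor
    · intro h; exact h.1
    · intro h; exact ⟨h, hp2 h⟩
  have hQsub : Q ⊆ Ioo (a - ρ₁) (a + ρ₁) ×ˢ Ioo (b - ρ₁) (b + ρ₁) := by
    rintro p ⟨⟨hp1, hp2⟩, -⟩
    exact ⟨⟨by linarith [hp1.1.1], by linarith [hp1.1.2]⟩, ⟨by linarith [hp2.1], by linarith [hp2.2]⟩⟩
  have himg : (fun p : ℝ × ℝ => x + e p.1 + e p.2) '' Q ⊆
      Metric.closedBall (z + e a + e b) (3 * ρ) \ c ⁻¹' {j} := by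
    rintro _ ⟨p, ⟨⟨hp1, hp2⟩, hp3⟩, rfl⟩
    refine ⟨?_, hp3⟩
    rw [Metric.mem_closedBall, dist_eq_norm]
    have e1 : x + e p.1 + e p.2 - (z + e a + e b) = (x - z) + (e p.1 - e a) + (e p.2 - e b) := by
      ring
    have e2 : ‖x - z‖ ≤ ρ := by rw [← dist_eq_norm]; exact (Metric.mem_ball.1 hxb).le
    have e3 : ‖e p.1 - e a‖ ≤ ρ := (dist_e_le _ _).trans
      (abs_le.2 ⟨by linarith [hp1.1.1], by linarith [hp1.1.2]⟩)
    have e4 : ‖e p.2 - e b‖ ≤ ρ := (dist_e_le _ _).trans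
      (abs_le.2 ⟨by linarith [hp2.1], by linarith [hp2.2]⟩)
    rw [e1]
    calc ‖(x - z) + (e p.1 - e a) + (e p.2 - e b)‖
        ≤ ‖x - z‖ + ‖e p.1 - e a‖ + ‖e p.2 - e b‖ := norm_add₃_le
      _ ≤ 3 * ρ := by linarith
  have hmain : ENNReal.ofReal c₁ * (volume P * ENNReal.ofReal (2 * ρ)) ≤
      ENNReal.ofReal ε * volume (Metric.closedBall (z + e a + e b) (3 * ρ)) := by
    rw [← hQvol]
    calc ENNReal.ofReal c₁ * volume Q ≤ c₀ * volume Q := by gcongr
      _ ≤ volume ((fun p : ℝ × ℝ => x + e p.1 + e p.2) '' Q) := harea x Q hQm hQsub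
      _ ≤ volume (Metric.closedBall (z + e a + e b) (3 * ρ) \ c ⁻¹' {j}) := measure_mono himg
      _ ≤ _ := h3
  have hPtop : volume P ≠ ⊤ := by
    apply ne_top_of_le_ne_top _ (measure_mono (inter_subset_left : P ⊆ Ioo (a - ρ) (a + ρ)))
    simp
  rw [Complex.volume_closedBall] at hmain
  have hmain' : c₁ * ((volume P).toReal * (2 * ρ)) ≤ ε * ((3 * ρ) ^ 2 * Real.pi) := by
    have h1 : ENNReal.ofReal c₁ * (volume P * ENNReal.ofReal (2 * ρ)) =
        ENNReal.ofReal (c₁ * ((volume P).toReal * (2 * ρ))) := by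
      rw [ENNReal.ofReal_mul hc₁.le, ENNReal.ofReal_mul ENNReal.toReal_nonneg,
        ENNReal.ofReal_toReal hPtop]
    have h2 : ENNReal.ofReal ε * (ENNReal.ofReal (3 * ρ) ^ 2 * (NNReal.pi : ℝ≥0∞)) =
        ENNReal.ofReal (ε * ((3 * ρ) ^ 2 * Real.pi)) := by
      rw [ENNReal.ofReal_mul hε.le, ENNReal.ofReal_mul (p := (3 * ρ) ^ 2) (by positivity),
        ENNReal.ofReal_pow (p := 3 * ρ) (by positivity)]
      congr 2
      rw [← NNReal.coe_real_pi, ENNReal.ofReal_coe_nnreal]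
    rw [h1, h2] at hmain
    exact (ENNReal.ofReal_le_ofReal_iff (by positivity)).1 hmain
  have hfin : (volume P).toReal ≤ κ * ρ := by
    have h4 : c₁ * ((volume P).toReal * (2 * ρ)) ≤ c₁ * (κ * ρ * (2 * ρ)) := by
      calc c₁ * ((volume P).toReal * (2 * ρ)) ≤ ε * ((3 * ρ) ^ 2 * Real.pi) := hmain'
        _ = ε * (9 * Real.pi) * ρ ^ 2 := by ring
        _ ≤ 2 * c₁ * κ * ρ ^ 2 := by gcongr
        _ = c₁ * (κ * ρ * (2 * ρ)) := by ring
    have h5 := le_of_mul_le_mul_left h4 hc₁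
    exact le_of_mul_le_mul_right h5 (by linarith)
  rw [← ENNReal.ofReal_toReal hPtop]
  exact ENNReal.ofReal_le_ofReal hfin

theorem purity : PurityStmt := by
  intro k c hc hp z a i hyp
  have hk : 0 < k := (Nat.zero_le _).trans_lt i.2
  have hkR : (0 : ℝ) < k := by exact_mod_cast hk
  have key : ∀ j : Fin k, ∃ ρ₀ : ℝ, 0 < ρ₀ ∧ ∀ ρ, 0 < ρ → ρ ≤ ρ₀ → ∀ᵐ x : ℂ, x ∈ Metric.ball z ρ →
      c x = i → volume (Ioo (a - ρ) (a + ρ) ∩ {s | c (x + e s) = j}) ≤
        ENNReal.ofReal (1 / k * ρ) := by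
    intro j
    by_cases hji : j = i
    · subst hji
      refine ⟨1, one_pos, fun ρ hρ _ => ?_⟩
      filter_upwards [hp] with x hx _ hxi
      have h0 : volume (Ioo (a - ρ) (a + ρ) ∩ {s | c (x + e s) = j}) = 0 := by
        have h1 : volume {s : ℝ | c (x + e s) = j} = 0 := by
          rw [ae_iff] at hx
          refine measure_mono_null (fun s hs => ?_) hx
          show ¬ (c (x + e s) ≠ c x)
          rw [not_not, hxi]; exact hs
        exact measure_mono_null inter_subset_right h1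
      rw [h0]; exact bot_le
    · rcases hyp j hji with ⟨b, hab, hd⟩ | ⟨ρ₁, hρ₁, hn⟩
      · obtain ⟨ρ₀, hρ₀, h⟩ := purity_local hc hp hab hd (κ := 1 / k) (by positivity)
        refine ⟨ρ₀, hρ₀, fun ρ hρ hle => ?_⟩
        filter_upwards [h ρ hρ hle] with x hx hxb _
        exact hx hxb
      · refine ⟨ρ₁ / 3, by linarith, fun ρ hρ hle => ?_⟩
        filter_upwards [ae_shift hn] with x hx hxb _
        have h0 : volume (Ioo (a - ρ) (a + ρ) ∩ {s | c (x + e s) = j}) = 0 := by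
          rw [ae_iff] at hx
          refine measure_mono_null (fun s hs => ?_) hx
          intro hall
          refine hall ?_ hs.2
          rw [Metric.mem_ball, dist_eq_norm]
          have e1 : x + e s - (z + e a) = (x - z) + (e s - e a) := by ring
          have e2 : ‖x - z‖ < ρ := by rw [← dist_eq_norm]; exact Metric.mem_ball.1 hxb
          have e3 : ‖e s - e a‖ ≤ ρ := (dist_e_le _ _).trans
            (abs_le.2 ⟨by linarith [hs.1.1], by linarith [hs.1.2]⟩)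
          rw [e1]
          calc ‖(x - z) + (e s - e a)‖ ≤ ‖x - z‖ + ‖e s - e a‖ := norm_add_le _ _
            _ < ρ₁ := by linarith
        rw [h0]; exact bot_le
  choose ρ₀ hρ₀ hkey using key
  have hne : (Finset.univ : Finset (Fin k)).Nonempty := ⟨i, Finset.mem_univ _⟩
  let ρ : ℝ := Finset.univ.inf' hne ρ₀
  have hρ : 0 < ρ := by
    rw [Finset.lt_inf'_iff]; exact fun j _ => hρ₀ j
  have hρle : ∀ j, ρ ≤ ρ₀ j := fun j => Finset.inf'_le _ (Finset.mem_univ j)
  refine ⟨ρ, hρ, ?_⟩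
  have hall : ∀ᵐ x : ℂ, ∀ j, x ∈ Metric.ball z ρ → c x = i →
      volume (Ioo (a - ρ) (a + ρ) ∩ {s | c (x + e s) = j}) ≤ ENNReal.ofReal (1 / k * ρ) :=
    ae_all_iff.2 fun j => hkey j ρ hρ (hρle j)
  filter_upwards [hall] with x hx hxb hxi
  have h1 : volume (Ioo (a - ρ) (a + ρ)) ≤
      ∑ j : Fin k, volume (Ioo (a - ρ) (a + ρ) ∩ {s | c (x + e s) = j}) := by
    have : Ioo (a - ρ) (a + ρ) ⊆ ⋃ j : Fin k, Ioo (a - ρ) (a + ρ) ∩ {s | c (x + e s) = j} := by
      intro s hs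
      exact mem_iUnion.2 ⟨c (x + e s), hs, rfl⟩
    exact (measure_mono this).trans (measure_iUnion_fintype_le _ _)
  have h2 : ∑ j : Fin k, volume (Ioo (a - ρ) (a + ρ) ∩ {s | c (x + e s) = j}) ≤
      ∑ _j : Fin k, ENNReal.ofReal (1 / k * ρ) := Finset.sum_le_sum fun j _ => hx j hxb hxi
  rw [Finset.sum_const, Finset.card_univ, Fintype.card_fin, Real.volume_Ioo] at *
  have h3 := h1.trans h2
  have h4 : (k • ENNReal.ofReal (1 / k * ρ)) = ENNReal.ofReal ρ := by
    rw [nsmul_eq_mul]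
    rw [← ENNReal.ofReal_natCast, ← ENNReal.ofReal_mul (by positivity)]
    congr 1
    field_simp
  rw [h4, ENNReal.ofReal_le_ofReal_iff hρ.le] at h3
  linarith

end Vale.Agent.P032.M
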