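import Vale.Agent.P032.M.Ind
import Vale.Agent.P032.M.Purity
import Vale.Agent.P032.M.LL
import Vale.Agent.P032.Bdl.B1

/-!
P032, measurable chromatic number: the final assembly.
-/

open MeasureTheory Set Filter Topology
open scoped ENNReal

namespace Vale.Agent.P032.M

theorem unit_closure {D : Set ℂ} (hD : IsOpen D) (hu : ∀ x ∈ D, ∀ y ∈ D, dist x y ≠ 1) :
    ∀ y ∈ interior (closure D), ∀ z ∈ closure D, dist y z ≠ 1 := by
  intro y hy z hz hd
  -- move `z` into `D`
  have h1 : ∀ᶠ z' in 𝓝 z, y + (z' - z) ∈ interior (closure D) := by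
    have hc : ContinuousAt (fun z' : ℂ => y + (z' - z)) z := by fun_prop
    exact hc (isOpen_interior.mem_nhds (by simpa using hy))
  obtain ⟨z', hz'D, hz'⟩ := (mem_closure_iff_frequently.1 hz).and_eventually h1 |>.exists
  set y' := y + (z' - z) with hy'
  have hd' : y' - z' = y - z := by rw [hy']; ring
  -- move `y'` into `D`
  have h2 : ∀ᶠ y'' in 𝓝 y', z' + (y'' - y') ∈ D := by
    have hc : ContinuousAt (fun y'' : ℂ => z' + (y'' - y')) y' := by fun_prop
    exact hc (hD.mem_nhds (by simpa using hz'D))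
  obtain ⟨y'', hy''D, hy''⟩ :=
    (mem_closure_iff_frequently.1 (interior_subset hz')).and_eventually h2 |>.exists
  apply hu y'' hy''D _ hy''
  rw [dist_eq_norm] at hd ⊢
  rw [← hd]
  congr 1
  rw [← hd']
  ring

theorem exists_CC_of_dense {k : ℕ} (hk : k ≤ 5) {D : Fin k → Set ℂ} (hD : ∀ i, IsOpen (D i))
    (hu : ∀ i, ∀ x ∈ D i, ∀ y ∈ D i, dist x y ≠ 1) (hdense : Dense (⋃ i, D i)) :
    ∃ G : Fin 5 → Set ℂ, B.CC G := by
  classical
  let G : Fin 5 → Set ℂ := fun i => if h : i.1 < k then closure (D ⟨i.1, h⟩) else ∅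
  have hGt : ∀ (i : Fin 5) (h : i.1 < k), G i = closure (D ⟨i.1, h⟩) := fun i h => by
    simp only [G, dif_pos h]
  have hGf : ∀ (i : Fin 5), ¬ i.1 < k → G i = ∅ := fun i h => by
    simp only [G, dif_neg h]
  refine ⟨G, ⟨?_, ?_, ?_, ?_⟩⟩
  · intro i
    by_cases h : i.1 < k
    · rw [hGt i h]; exact isClosed_closure
    · rw [hGf i h]; exact isClosed_empty
  · intro x
    have hx : x ∈ closure (⋃ i, D i) := hdense x
    rw [closure_iUnion_of_finite] at hx
    obtain ⟨j, hj⟩ := mem_iUnion.1 hx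
    refine ⟨⟨j.1, j.2.trans_le hk⟩, ?_⟩
    rw [hGt ⟨j.1, j.2.trans_le hk⟩ j.2]
    exact hj
  · intro i
    by_cases h : i.1 < k
    · rw [hGt i h]
      exact closure_mono (interior_maximal subset_closure (hD _))
    · rw [hGf i h]; exact empty_subset _
  · intro i y hy z hz
    by_cases h : i.1 < k
    · rw [hGt i h] at hz hy
      exact unit_closure (hD _) (hu _) y hy z hz
    · rw [hGf i h] at hz; exact absurd hz (notMem_empty z)

theorem six_le_of (hL : LimitStmt) {k : ℕ} (c : ℂ → Fin k) (hc : Measurable c) (hp : Proper c) :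
    6 ≤ k := by
  by_contra hk
  obtain ⟨D, hD, hu, -, hdense⟩ := denseOpen_of hL purity k c hc hp
  obtain ⟨G, hG⟩ := exists_CC_of_dense (by omega) hD hu hdense
  exact B.no_CC G hG

/-- From a Lebesgue measurable colouring of the Euclidean plane, proper off a null set, to a
measurable a.e. proper colouring of `ℂ`. -/
theorem exists_proper {k : ℕ} (c : EuclideanSpace ℝ (Fin 2) → Fin k)
    (hm : ∀ i, NullMeasurableSet (c ⁻¹' {i}) volume)
    (D : Set (EuclideanSpace ℝ (Fin 2))) (hD : volume Dᶜ = 0)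
    (hc : ∀ x ∈ D, ∀ y ∈ D, dist x y = 1 → c x ≠ c y) :
    ∃ c' : ℂ → Fin k, Measurable c' ∧ Proper c' := by
  let φ : ℂ ≃ₗᵢ[ℝ] EuclideanSpace ℝ (Fin 2) := Complex.orthonormalBasisOneI.repr
  have hφ : MeasurePreserving φ volume volume := φ.measurePreserving
  have hm' : NullMeasurable (c ∘ φ) volume := by
    intro s _
    have : (c ∘ φ) ⁻¹' s = ⋃ i ∈ s, φ ⁻¹' (c ⁻¹' {i}) := by
      ext x; simp
    rw [this]
    exact NullMeasurableSet.biUnion (Set.to_countable s) fun i _ =>
      (hm i).preimage hφ.quasiMeasurePreserving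
  have hae := hm'.aemeasurable
  refine ⟨hae.mk _, hae.measurable_mk, ?_⟩
  have hDae : ∀ᵐ x : ℂ, φ x ∈ D := by
    have : ∀ᵐ x : EuclideanSpace ℝ (Fin 2), x ∈ D := by rw [ae_iff]; exact hD
    exact hφ.quasiMeasurePreserving.ae this
  have hgood : ∀ᵐ x : ℂ, φ x ∈ D ∧ hae.mk _ x = c (φ x) := by
    filter_upwards [hDae, hae.ae_eq_mk] with x h1 h2
    exact ⟨h1, h2.symm⟩
  unfold Proper
  filter_upwards [hgood, ae_shift hgood] with x h1 h2
  filter_upwards [h2] with t h3
  rw [h1.2, h3.2]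
  refine (hc _ h1.1 _ h3.1 ?_).symm
  rw [φ.dist_map, dist_eq_norm]
  have : x - (x + e t) = -(e t) := by ring
  rw [this, norm_neg, norm_e]

/-- The limit lemma. -/
theorem limit : LimitStmt := limitStmt_of_sumNull sumNull

/-- Theorem M. -/
theorem denseOpen : DenseOpenStmt := denseOpen_of limit purity

theorem six_le {k : ℕ} (c : ℂ → Fin k) (hc : Measurable c) (hp : Proper c) : 6 ≤ k :=
  six_le_of limit c hc hp

end Vale.Agent.P032.M
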