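import Vale.Agent.P032.M.Defs

/-!
P032, measurable chromatic number: Fubini helpers.
-/

open MeasureTheory Set Filter Topology
open scoped ENNReal

namespace Vale.Agent.P032.M

theorem continuous_e : Continuous e := by
  unfold e; fun_prop

@[fun_prop]
theorem measurable_e : Measurable e := continuous_e.measurable

@[simp] theorem norm_e (t : ℝ) : ‖e t‖ = 1 := by
  unfold e; exact Complex.norm_exp_ofReal_mul_I t

theorem e_add_pi (t : ℝ) : e (t + Real.pi) = - e t := by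
  unfold e
  push_cast
  rw [add_mul, Complex.exp_add, Complex.exp_pi_mul_I]
  ring

theorem measurable_shift : Measurable (fun p : ℂ × ℝ => p.1 + e p.2) := by
  fun_prop

/-- Quantifiers over positions and directions commute. -/
theorem comm_iff {P : ℂ → ℂ → Prop} (hP : MeasurableSet {p : ℂ × ℂ | P p.1 p.2}) :
    (∀ᵐ x : ℂ, ∀ᵐ t : ℝ, P x (x + e t)) ↔ (∀ᵐ t : ℝ, ∀ᵐ x : ℂ, P x (x + e t)) := by
  apply Measure.ae_ae_comm (p := fun (x : ℂ) (t : ℝ) => P x (x + e t))
  have : Measurable (fun p : ℂ × ℝ => ((p.1, p.1 + e p.2) : ℂ × ℂ)) := by fun_prop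
  exact this hP

theorem ae_shift_const {P : ℂ → Prop} (h : ∀ᵐ x : ℂ, P x) (a : ℂ) : ∀ᵐ x : ℂ, P (x + a) :=
  (measurePreserving_add_right (volume : Measure ℂ) a).quasiMeasurePreserving.ae h

theorem ae_shift {P : ℂ → Prop} (h : ∀ᵐ x : ℂ, P x) : ∀ᵐ x : ℂ, ∀ᵐ t : ℝ, P (x + e t) := by
  obtain ⟨N, hN, hNm, hN0⟩ := exists_measurable_superset_of_null (ae_iff.1 h)
  have h' : ∀ᵐ x : ℂ, x ∉ N := by
    rw [ae_iff]; simpa using hN0
  have key : ∀ᵐ x : ℂ, ∀ᵐ t : ℝ, (x + e t) ∉ N := by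
    have := (comm_iff (P := fun _ y => y ∉ N) (by
      exact (measurable_snd hNm).compl)).2
    apply this
    refine Eventually.of_forall fun t => ?_
    exact ae_shift_const h' (e t)
  filter_upwards [key] with x hx
  filter_upwards [hx] with t ht
  by_contra hc
  exact ht (hN hc)

theorem ae_swap {P : ℂ → ℂ → Prop} (hP : MeasurableSet {p : ℂ × ℂ | P p.1 p.2})
    (h : ∀ᵐ x : ℂ, ∀ᵐ t : ℝ, P x (x + e t)) : ∀ᵐ x : ℂ, ∀ᵐ t : ℝ, P (x + e t) x := by
  have h1 := (comm_iff hP).1 h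
  have h2 : ∀ᵐ t : ℝ, ∀ᵐ x : ℂ, P x (x + e (t + Real.pi)) :=
    (measurePreserving_add_right (volume : Measure ℝ) Real.pi).quasiMeasurePreserving.ae h1
  have hP' : MeasurableSet {p : ℂ × ℂ | P p.2 p.1} := measurable_swap hP
  refine (comm_iff (P := fun x y => P y x) hP').2 ?_
  filter_upwards [h2] with t ht
  have := ae_shift_const ht (e t)
  filter_upwards [this] with x hx
  rw [e_add_pi] at hx
  simpa using hx

theorem sees_iff (S : Set ℂ) (x : ℂ) : Sees S x ↔ volume {t : ℝ | x + e t ∈ S} ≠ 0 := by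
  unfold Sees
  rw [ae_iff]
  simp

theorem measurableSet_sees {S : Set ℂ} (hS : MeasurableSet S) : MeasurableSet {x | Sees S x} := by
  have h1 : Measurable (fun x : ℂ => volume (Prod.mk x ⁻¹' {p : ℂ × ℝ | p.1 + e p.2 ∈ S})) :=
    measurable_measure_prodMk_left (measurable_shift hS)
  have : {x | Sees S x} = (fun x : ℂ => volume (Prod.mk x ⁻¹' {p : ℂ × ℝ | p.1 + e p.2 ∈ S})) ⁻¹' {0}ᶜ := by
    ext x
    simp only [mem_setOf_eq, sees_iff, mem_preimage, mem_compl_iff, mem_singleton_iff]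
    rfl
  rw [this]
  exact h1 (measurableSet_singleton 0).compl

theorem not_sees {S : Set ℂ} {x : ℂ} (h : ¬ Sees S x) : ∀ᵐ t : ℝ, x + e t ∉ S := by
  unfold Sees at h; exact not_not.1 h

/-- From a seen set one can pick a direction with any a.e. property. -/
theorem Sees.exists_mem {S : Set ℂ} {x : ℂ} (h : Sees S x) {Q : ℝ → Prop} (hQ : ∀ᵐ t : ℝ, Q t) :
    ∃ t, x + e t ∈ S ∧ Q t := by
  by_contra hc
  push_neg at hc
  apply h
  filter_upwards [hQ] with t ht hS
  exact hc t hS ht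

theorem Sees.mono {S T : Set ℂ} {x : ℂ} (h : Sees S x) (hST : S ⊆ T) : Sees T x := by
  intro hT
  apply h
  filter_upwards [hT] with t ht hS
  exact ht (hST hS)

theorem Sees.mono_ae {S T : Set ℂ} {x : ℂ} (h : Sees S x) (hST : ∀ᵐ t : ℝ, x + e t ∈ S → x + e t ∈ T) :
    Sees T x := by
  intro hT
  apply h
  filter_upwards [hT, hST] with t ht ht2 hS
  exact ht (ht2 hS)

/-- Measurable selection of a good index. -/
theorem exists_pick {k : ℕ} (hk : 0 < k) (G : Fin k → Set ℂ) (hG : ∀ j, MeasurableSet (G j)) :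
    ∃ f : ℂ → Fin k, Measurable f ∧ ∀ x, (∃ j, x ∈ G j) → x ∈ G (f x) := by
  classical
  let p : ℕ → ℂ → Prop := fun n x => (∃ hn : n < k, x ∈ G ⟨n, hn⟩) ∨ (∀ j, x ∉ G j)
  let g : ℕ → ℂ → Fin k := fun n _ => if hn : n < k then ⟨n, hn⟩ else ⟨0, hk⟩
  have hp : ∀ x, ∃ n, p n x := by
    intro x
    by_cases h : ∃ j, x ∈ G j
    · obtain ⟨j, hj⟩ := h
      exact ⟨j, Or.inl ⟨j.2, hj⟩⟩
    · push_neg at h
      exact ⟨0, Or.inr h⟩
  refine ⟨fun x => g (Nat.find (hp x)) x, ?_, ?_⟩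
  · apply Measurable.find
    · intro n; exact measurable_const
    · intro n
      by_cases hn : n < k
      · have : {x | p n x} = G ⟨n, hn⟩ ∪ ⋂ j, (G j)ᶜ := by
          ext x; simp [p, hn]
        rw [this]
        exact (hG _).union (MeasurableSet.iInter fun j => (hG j).compl)
      · have : {x | p n x} = ⋂ j, (G j)ᶜ := by
          ext x; simp [p, hn]
        rw [this]
        exact MeasurableSet.iInter fun j => (hG j).compl
  · rintro x ⟨j, hj⟩
    have hs := Nat.find_spec (hp x)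
    rcases hs with ⟨hn, hx⟩ | h
    · simp only [g, hn, dif_pos]; exact hx
    · exact absurd hj (h j)

end Vale.Agent.P032.M
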