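import Vale.Agent.P032.M.Max

/-!
P032, measurable chromatic number: the downward induction, and Theorem M from the blocks.
-/

open MeasureTheory Set Filter Topology
open scoped ENNReal

namespace Vale.Agent.P032.M

/-- mu and Lebesgue measure have the same null sets. -/
theorem mu_null {s : Set ℂ} : mu s = 0 ↔ volume s = 0 := by
  unfold mu
  constructor
  · intro h; exact (absolutelyContinuous_toFinite (volume : Measure ℂ)) h
  · intro h; exact (toFinite_absolutelyContinuous (volume : Measure ℂ)) h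

instance mu_isFinite : IsFiniteMeasure mu := by unfold mu; infer_instance

/-- generic points: seen colours are seen through density points in general direction. -/
theorem generic_dens {k : ℕ} {c : ℂ → Fin k} (hc : Measurable c) :
    ∀ᵐ w : ℂ, ∀ j : Fin k, Sees (c ⁻¹' {j}) w → ∀ a : ℝ, ∃ b : ℝ, Real.sin (a - b) ≠ 0 ∧
      IsDens (c ⁻¹' {j}) (w + e b) := by
  rw [ae_all_iff]
  intro j
  have h1 : ∀ᵐ x : ℂ, x ∈ c ⁻¹' {j} → IsDens (c ⁻¹' {j}) x := by
    have := Besicovitch.ae_tendsto_measure_inter_div (volume : Measure ℂ) (c ⁻¹' {j})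
    rw [ae_restrict_iff' (hc (measurableSet_singleton j))] at this
    exact this
  filter_upwards [ae_shift h1] with w hw hs a
  have hsin : ∀ᵐ b : ℝ, Real.sin (a - b) ≠ 0 := by
    have hcount : ({b : ℝ | Real.sin (a - b) = 0}).Countable := by
      have : {b : ℝ | Real.sin (a - b) = 0} ⊆ range (fun n : ℤ => a - n * Real.pi) := by
        intro b hb
        obtain ⟨n, hn⟩ := Real.sin_eq_zero_iff.1 hb
        exact ⟨n, by simp only []; linarith⟩
      exact (countable_range _).mono this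
    have := hcount.measure_zero (volume : Measure ℝ)
    rw [ae_iff]; simpa using this
  obtain ⟨b, hb1, hb2, hb3⟩ := hs.exists_mem (hw.and hsin)
  exact ⟨b, hb3, hb2 hb1⟩

/-- One step of the induction. -/
theorem step (hL : LimitStmt) (hP : PurityStmt) {k : ℕ} {D : Fin k → Set ℂ}
    (hD : ∀ i, IsOpen (D i))
    (hmax : ∀ c : ℂ → Fin k, Measurable c → Proper c → Ext D c → ∀ V : Set ℂ, IsOpen V →
      V.Nonempty → (∀ i, Disjoint V (D i)) → ∀ i, ¬ ∀ᵐ x : ℂ, x ∈ V → c x = i)
    {Ω : Set ℂ} (hΩ : IsOpen Ω) (hΩD : ∀ i, Disjoint Ω (D i)) (m : Fin k)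
    (h : ∃ c : ℂ → Fin k, Measurable c ∧ Proper c ∧ Ext D c ∧ ∀ᵐ x : ℂ, x ∈ Ω → c x ≤ m) :
    ∃ c : ℂ → Fin k, Measurable c ∧ Proper c ∧ Ext D c ∧ ∀ᵐ x : ℂ, x ∈ Ω → c x < m := by
  classical
  have hΩm : MeasurableSet Ω := hΩ.measurableSet
  let E : Set (ℂ → Fin k) := {c | Measurable c ∧ Proper c ∧ Ext D c ∧ ∀ᵐ x : ℂ, x ∈ Ω → c x ≤ m}
  let val : (ℂ → Fin k) → ℝ≥0∞ := fun c => mu (Ω ∩ {x | c x = m})
  -- a minimiser
  obtain ⟨c, hcE, hcmin⟩ : ∃ c ∈ E, ∀ c' ∈ E, val c ≤ val c' := by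
    have hne : (val '' E).Nonempty := by
      obtain ⟨c, hc⟩ := h
      exact ⟨_, mem_image_of_mem _ hc⟩
    obtain ⟨u, hu1, hu2, hu3⟩ := exists_seq_tendsto_sInf hne (OrderBot.bddBelow _)
    choose cn hcn hval using hu3
    obtain ⟨c', hc', hp', hA, hB⟩ := hL k cn (fun n => (hcn n).1) (fun n => (hcn n).2.1)
    obtain ⟨hB1, hB2⟩ := hB Ω m hΩm (fun n => (hcn n).2.2.2)
    refine ⟨c', ⟨hc', hp', ?_, hB1⟩, ?_⟩
    · intro i
      exact hA (D i) i (hD i).measurableSet (Eventually.of_forall fun n => (hcn n).2.2.1 i)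
    · intro c'' hc''
      have hs : val c' ≤ sInf (val '' E) := by
        apply le_of_forall_gt_imp_ge_of_dense
        intro r hr
        apply hB2 r
        have := (tendsto_order.1 hu2).2 r hr
        filter_upwards [this] with n hn
        have h3 := hval n
        simp only [val] at h3
        rw [h3]; exact hn.le
      exact hs.trans (sInf_le (mem_image_of_mem _ hc''))
  obtain ⟨hc, hp, hE, hle⟩ := hcE
  -- nonfree points
  let NF : Fin k → Set ℂ := fun i => (⋃ j, D j) ∪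
    ((Ω ∩ ⋂ f ∈ {f : Fin k | f ≤ m ∧ f ≠ i}, {w | Sees (c ⁻¹' {f}) w}) ∪
     (Ωᶜ ∩ ⋂ f ∈ {f : Fin k | f ≠ i}, {w | Sees (c ⁻¹' {f}) w}))
  have hNF : ∀ i, MeasurableSet (NF i) := by
    intro i
    refine (MeasurableSet.iUnion fun j => (hD j).measurableSet).union
      ((hΩm.inter ?_).union (hΩm.compl.inter ?_))
    · exact MeasurableSet.biInter (Set.to_countable _) fun f _ =>
        measurableSet_sees (hc (measurableSet_singleton f))
    · exact MeasurableSet.biInter (Set.to_countable _) fun f _ =>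
        measurableSet_sees (hc (measurableSet_singleton f))
  let Z : Fin k → Set ℂ := fun i => {z | z ∈ Ω ∧ c z = m ∧ ¬ Sees (NF i ∩ c ⁻¹' {i}) z}
  have hZ : ∀ i, MeasurableSet (Z i) := by
    intro i
    have e1 := measurableSet_sees ((hNF i).inter (hc (measurableSet_singleton i)))
    exact hΩm.inter ((hc (measurableSet_singleton m)).inter e1.compl)
  -- the key claim
  have hZ0 : ∀ i, i < m → volume (Z i) = 0 := by
    intro i him
    -- recoloured points are not nonfree
    have hfree : ∀ᵐ x : ℂ, x ∈ NF i ∩ c ⁻¹' {i} → ¬ Sees (Z i) x := by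
      have h1 : ∀ᵐ z : ℂ, ∀ᵐ t : ℝ, z ∈ Z i → z + e t ∉ NF i ∩ c ⁻¹' {i} := by
        refine Eventually.of_forall fun z => ?_
        by_cases hz : z ∈ Z i
        · filter_upwards [not_sees hz.2.2] with t ht _
          exact ht
        · exact Eventually.of_forall fun t hz' => absurd hz' hz
      have h2 : MeasurableSet {p : ℂ × ℂ | p.1 ∈ Z i → p.2 ∉ NF i ∩ c ⁻¹' {i}} := by
        have : {p : ℂ × ℂ | p.1 ∈ Z i → p.2 ∉ NF i ∩ c ⁻¹' {i}} =
          (Prod.fst ⁻¹' (Z i))ᶜ ∪ (Prod.snd ⁻¹' (NF i ∩ c ⁻¹' {i}))ᶜ := by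
          ext p
          simp only [mem_setOf_eq, mem_union, mem_compl_iff, mem_preimage]
          tauto
        rw [this]
        exact (measurable_fst (hZ i)).compl.union
          (measurable_snd ((hNF i).inter (hc (measurableSet_singleton i)))).compl
      have h3 := ae_swap (P := fun x y => x ∈ Z i → y ∉ NF i ∩ c ⁻¹' {i}) h2 h1
      filter_upwards [h3] with x hx hxN hs
      apply hs
      filter_upwards [hx] with t ht hZt
      exact ht hZt hxN
    -- selection of a free colour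
    let G : Fin k → Set ℂ := fun f => {x | f ≠ i ∧ ¬ Sees (c ⁻¹' {f}) x ∧ (x ∈ Ω → f ≤ m)}
    have hG : ∀ f, MeasurableSet (G f) := by
      intro f
      have e1 := measurableSet_sees (hc (measurableSet_singleton f))
      refine (MeasurableSet.const _).inter (e1.compl.inter ?_)
      have : {x : ℂ | x ∈ Ω → f ≤ m} = Ωᶜ ∪ {x : ℂ | f ≤ m} := by
        ext x
        simp only [mem_setOf_eq, mem_union, mem_compl_iff]
        tauto
      have h' : MeasurableSet {x : ℂ | x ∈ Ω → f ≤ m} := by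
        rw [this]; exact hΩm.compl.union (MeasurableSet.const _)
      exact h'
    obtain ⟨f, hf, hfG⟩ := exists_pick ((Nat.zero_le _).trans_lt m.2) G hG
    have hfree' : ∀ᵐ x : ℂ, c x = i → Sees (Z i) x →
        (∀ j, x ∉ D j) ∧ f x ≠ i ∧ ¬ Sees (c ⁻¹' {f x}) x ∧ (x ∈ Ω → f x ≤ m) := by
      filter_upwards [hfree] with x hx hci hs
      have hnf : x ∉ NF i := fun hN => hx ⟨hN, hci⟩ hs
      have hnD : ∀ j, x ∉ D j := fun j hj => hnf (Or.inl (mem_iUnion.2 ⟨j, hj⟩))
      have hex : ∃ j, x ∈ G j := by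
        by_cases hxΩ : x ∈ Ω
        · have : ¬ ∀ f ∈ {f : Fin k | f ≤ m ∧ f ≠ i}, Sees (c ⁻¹' {f}) x := by
            intro hall
            exact hnf (Or.inr (Or.inl ⟨hxΩ, mem_iInter₂.2 hall⟩))
          push Not at this
          obtain ⟨g, ⟨hg1, hg2⟩, hg3⟩ := this
          exact ⟨g, hg2, hg3, fun _ => hg1⟩
        · have : ¬ ∀ f ∈ {f : Fin k | f ≠ i}, Sees (c ⁻¹' {f}) x := by
            intro hall
            exact hnf (Or.inr (Or.inr ⟨hxΩ, mem_iInter₂.2 hall⟩))
          push Not at this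
          obtain ⟨g, hg2, hg3⟩ := this
          exact ⟨g, hg2, hg3, fun h => absurd h hxΩ⟩
      exact ⟨hnD, hfG x hex⟩
    -- the new colouring
    have hnew : recol c f i (Z i) ∈ E := by
      refine ⟨measurable_recol hc hf i (hZ i), recol_proper hc hf hp (hZ i) (m := m)
        (fun x hx => hx.2.1) ?_, ?_, ?_⟩
      · filter_upwards [hfree'] with x hx h1 h2
        exact ⟨(hx h1 h2).2.1, (hx h1 h2).2.2.1⟩
      · intro j
        filter_upwards [hfree', hE j] with x hx hxE hxD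
        have hxZ : x ∉ Z i := fun hz => Set.disjoint_left.1 (hΩD j) hz.1 hxD
        have hxW : ¬ (c x = i ∧ Sees (Z i) x) := fun hw => (hx hw.1 hw.2).1 j hxD
        unfold recol
        rw [if_neg hxZ, if_neg hxW]
        exact hxE hxD
      · filter_upwards [hfree', hle] with x hx hxle hxΩ
        unfold recol
        split_ifs with g1 g2
        · exact him.le
        · exact (hx g2.1 g2.2).2.2.2 hxΩ
        · exact hxle hxΩ
    have hloss : val (recol c f i (Z i)) ≤ mu ((Ω ∩ {x | c x = m}) \ Z i) := by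
      apply measure_mono_ae
      have hac : mu ≪ volume := toFinite_absolutelyContinuous (volume : Measure ℂ)
      have : ∀ᵐ x : ℂ, x ∈ Ω ∩ {x | recol c f i (Z i) x = m} →
          x ∈ (Ω ∩ {x | c x = m}) \ Z i := by
        filter_upwards [hfree'] with x hx
        rintro ⟨hxΩ, hxm⟩
        have hxm' : recol c f i (Z i) x = m := hxm
        unfold recol at hxm'
        split_ifs at hxm' with g1 g2
        · exact absurd hxm' him.ne
        · exfalso
          have h3 := (hx g2.1 g2.2).2.2.1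
          rw [hxm'] at h3
          exact h3 (g2.2.mono fun z hz => hz.2.1)
        · exact ⟨⟨hxΩ, hxm'⟩, g1⟩
      exact hac.ae_le this
    have hsub : Z i ⊆ Ω ∩ {x | c x = m} := fun z hz => ⟨hz.1, hz.2.1⟩
    have h1 : mu ((Ω ∩ {x | c x = m}) \ Z i) = val c - mu (Z i) :=
      measure_diff hsub (hZ i).nullMeasurableSet (measure_ne_top _ _)
    have h2 : val c ≤ val c - mu (Z i) := by
      rw [← h1]; exact (hcmin _ hnew).trans hloss
    have h3 : mu (Z i) ≤ val c := measure_mono hsub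
    have h4 : mu (Z i) = 0 := by
      by_contra hne
      exact absurd h2 (not_le.2 (ENNReal.sub_lt_self (measure_ne_top _ _)
        (fun h0 => hne (le_antisymm (h0 ▸ h3) bot_le)) hne))
    exact mu_null.1 h4
  -- conclusion
  refine ⟨c, hc, hp, hE, ?_⟩
  have hZ1 : ∀ᵐ z : ℂ, ∀ i : Fin k, i < m → z ∉ Z i := by
    rw [ae_all_iff]
    intro i
    by_cases him : i < m
    · have := hZ0 i him
      have h' : ∀ᵐ z : ℂ, z ∉ Z i := by rw [ae_iff]; simpa using this
      filter_upwards [h'] with z hz _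
      exact hz
    · exact Eventually.of_forall fun z h => absurd h him
  have hgen : ∀ᵐ w : ℂ, (∀ j : Fin k, Sees (c ⁻¹' {j}) w → ∀ a : ℝ, ∃ b : ℝ,
      Real.sin (a - b) ≠ 0 ∧ IsDens (c ⁻¹' {j}) (w + e b)) ∧ ∀ l, w ∈ D l → c w = l :=
    (generic_dens hc).and (ae_all_iff.2 hE)
  filter_upwards [hZ1, ae_shift hgen, hle] with z hz1 hz2 hzle hzΩ
  refine lt_of_le_of_ne (hzle hzΩ) fun hzm => ?_
  -- purity: every colour below `m` is missing near `z`
  have hpure : ∀ i : Fin k, i < m → ∃ ρ : ℝ, 0 < ρ ∧ ∀ᵐ x : ℂ, x ∈ Metric.ball z ρ → c x ≠ i := by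
    intro i him
    have hs : Sees (NF i ∩ c ⁻¹' {i}) z := by
      by_contra hs
      exact hz1 i him ⟨hzΩ, hzm, hs⟩
    obtain ⟨a, ⟨haN, hai⟩, hgen1, hgen2⟩ := hs.exists_mem hz2
    apply hP k c hc hp z a i
    intro j hji
    rcases haN with hD' | ⟨hwΩ, hall⟩ | ⟨hwΩ, hall⟩
    · obtain ⟨l, hl⟩ := mem_iUnion.1 hD'
      have hli : l = i := (hgen2 l hl).symm.trans hai
      subst hli
      right
      obtain ⟨ρ, hρ, hball⟩ := Metric.isOpen_iff.1 (hD l) _ hl
      refine ⟨ρ, hρ, ?_⟩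
      filter_upwards [hE l] with x hx hxb hxj
      exact hji (hxj.symm.trans (hx (hball hxb)))
    · by_cases hjm : j ≤ m
      · left
        have := mem_iInter₂.1 hall j ⟨hjm, hji⟩
        exact hgen1 j this a
      · right
        obtain ⟨ρ, hρ, hball⟩ := Metric.isOpen_iff.1 hΩ _ hwΩ
        refine ⟨ρ, hρ, ?_⟩
        filter_upwards [hle] with x hx hxb hxj
        exact hjm (hxj ▸ hx (hball hxb))
    · left
      have := mem_iInter₂.1 hall j hji
      exact hgen1 j this a
  choose! ρ hρ hρb using hpure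
  obtain ⟨r0, hr0, hr0b⟩ := Metric.isOpen_iff.1 hΩ _ hzΩ
  obtain ⟨r, hr, hrle⟩ : ∃ r : ℝ, 0 < r ∧ r ≤ r0 ∧ ∀ i, i < m → r ≤ ρ i := by
    by_cases hne : (Finset.univ.filter (fun i : Fin k => i < m)).Nonempty
    · refine ⟨min r0 ((Finset.univ.filter (fun i : Fin k => i < m)).inf' hne ρ), ?_, min_le_left _ _,
        fun i hi => (min_le_right _ _).trans (Finset.inf'_le _ (by simp [hi]))⟩
      apply lt_min hr0
      rw [Finset.lt_inf'_iff]
      intro i hi
      exact hρ i (by simpa using hi)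
    · refine ⟨r0, hr0, le_rfl, fun i hi => ?_⟩
      exact absurd ⟨i, by simp [hi]⟩ hne
  apply hmax c hc hp hE (Metric.ball z r) Metric.isOpen_ball ⟨z, Metric.mem_ball_self hr⟩
    (fun i => (hΩD i).mono_left ((Metric.ball_subset_ball hrle.1).trans hr0b)) m
  have hall : ∀ᵐ x : ℂ, ∀ i : Fin k, i < m → x ∈ Metric.ball z (ρ i) → c x ≠ i := by
    rw [ae_all_iff]
    intro i
    by_cases him : i < m
    · filter_upwards [hρb i him] with x hx _
      exact hx
    · exact Eventually.of_forall fun z h => absurd h him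
  filter_upwards [hall, hle] with x hx1 hx2 hxb
  have hxΩ : x ∈ Ω := hr0b (Metric.ball_subset_ball hrle.1 hxb)
  by_contra hne
  have hlt : c x < m := lt_of_le_of_ne (hx2 hxΩ) hne
  exact hx1 (c x) hlt (Metric.ball_subset_ball (hrle.2 _ hlt) hxb) rfl

/-- Theorem M, from the limit lemma and purity. -/
theorem denseOpen_of (hL : LimitStmt) (hP : PurityStmt) : DenseOpenStmt := by
  intro k c₀ hc₀ hp₀
  obtain ⟨D, hD, ⟨c₁, hc₁, hp₁, hE₁⟩, hmax⟩ := exists_maximal hL ⟨c₀, hc₀, hp₀⟩
  refine ⟨D, hD, fun i => Ext.unit hD hp₁ hE₁ i, fun i j hij => Ext.disj hD hE₁ i j hij, ?_⟩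
  let Ω : Set ℂ := (closure (⋃ i, D i))ᶜ
  have hΩ : IsOpen Ω := isClosed_closure.isOpen_compl
  have hΩD : ∀ i, Disjoint Ω (D i) := by
    intro i
    rw [Set.disjoint_left]
    intro x hx hxD
    exact hx (subset_closure (mem_iUnion.2 ⟨i, hxD⟩))
  have hind : ∀ m : ℕ, m ≤ k → ∃ c : ℂ → Fin k, Measurable c ∧ Proper c ∧ Ext D c ∧
      ∀ᵐ x : ℂ, x ∈ Ω → (c x : ℕ) < k - m := by
    intro m
    induction m with
    | zero =>
      intro _
      exact ⟨c₁, hc₁, hp₁, hE₁, Eventually.of_forall fun x _ => by simp⟩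
    | succ m ih =>
      intro hm
      obtain ⟨c, hc, hp, hE, hlt⟩ := ih (by omega)
      obtain ⟨c', hc', hp', hE', hlt'⟩ := step hL hP hD hmax hΩ hΩD ⟨k - (m + 1), by omega⟩
        ⟨c, hc, hp, hE, by
          filter_upwards [hlt] with x hx hxΩ
          have := hx hxΩ
          rw [Fin.le_def]
          show (c x : ℕ) ≤ k - (m + 1)
          omega⟩
      refine ⟨c', hc', hp', hE', ?_⟩
      filter_upwards [hlt'] with x hx hxΩ
      exact hx hxΩ
  obtain ⟨c, -, -, -, hlt⟩ := hind k le_rfl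
  have hΩ0 : Ω = ∅ := by
    by_contra hne
    obtain ⟨x, hx, hx'⟩ := exists_of_ae hΩ (nonempty_iff_ne_empty.2 hne) hlt
    have := hx' hx
    omega
  rw [dense_iff_closure_eq]
  rw [← compl_empty_iff]
  exact hΩ0

end Vale.Agent.P032.M
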