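import Vale.Agent.P032.M.Fub

/-!
P032, measurable chromatic number: the Jacobian block.
-/

open MeasureTheory Set Filter Topology
open scoped ENNReal

namespace Vale.Agent.P032.M

/-- sum of two unit vectors, in real coordinates -/
noncomputable def gg (p : ℝ × ℝ) : ℝ × ℝ :=
  (Real.cos p.1 + Real.cos p.2, Real.sin p.1 + Real.sin p.2)

/-- its derivative -/
noncomputable def gg' (p : ℝ × ℝ) : ℝ × ℝ →L[ℝ] ℝ × ℝ :=
  (Matrix.toLin (Module.Basis.finTwoProd ℝ) (Module.Basis.finTwoProd ℝ)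
    !![-Real.sin p.1, -Real.sin p.2; Real.cos p.1, Real.cos p.2]).toContinuousLinearMap

theorem det_gg' (p : ℝ × ℝ) : (gg' p).det = Real.sin (p.2 - p.1) := by
  unfold gg'
  simp only [neg_mul, LinearMap.det_toContinuousLinearMap, LinearMap.det_toLin,
    Matrix.det_fin_two_of, sub_neg_eq_add]
  rw [Real.sin_sub]
  ring

theorem hasStrictFDerivAt_gg (p : ℝ × ℝ) : HasStrictFDerivAt gg (gg' p) p := by
  unfold gg'
  rw [Matrix.toLin_finTwoProd_toContinuousLinearMap]
  have h1 := ((Real.hasStrictDerivAt_cos p.1).comp_hasStrictFDerivAt p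
    (hasStrictFDerivAt_fst (𝕜 := ℝ) (E := ℝ) (F := ℝ) (p := p)))
  have h2 := ((Real.hasStrictDerivAt_cos p.2).comp_hasStrictFDerivAt p
    (hasStrictFDerivAt_snd (𝕜 := ℝ) (E := ℝ) (F := ℝ) (p := p)))
  have h3 := ((Real.hasStrictDerivAt_sin p.1).comp_hasStrictFDerivAt p
    (hasStrictFDerivAt_fst (𝕜 := ℝ) (E := ℝ) (F := ℝ) (p := p)))
  have h4 := ((Real.hasStrictDerivAt_sin p.2).comp_hasStrictFDerivAt p
    (hasStrictFDerivAt_snd (𝕜 := ℝ) (E := ℝ) (F := ℝ) (p := p)))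
  exact (h1.add h2).prodMk (h3.add h4)

theorem gg_injOn (p : ℝ × ℝ) (hp : Real.sin (p.2 - p.1) ≠ 0) :
    ∃ U : Set (ℝ × ℝ), IsOpen U ∧ p ∈ U ∧ InjOn gg U := by
  have hdet : (gg' p).det ≠ 0 := by rw [det_gg']; exact hp
  have h := hasStrictFDerivAt_gg p
  rw [← ContinuousLinearMap.coe_toContinuousLinearEquivOfDetNeZero (gg' p) hdet] at h
  refine ⟨(h.toOpenPartialHomeomorph gg).source, (h.toOpenPartialHomeomorph gg).open_source,
    h.mem_toOpenPartialHomeomorph_source, ?_⟩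
  have := (h.toOpenPartialHomeomorph gg).injOn
  rwa [h.toOpenPartialHomeomorph_coe] at this

theorem continuous_gg : Continuous gg := by
  unfold gg; fun_prop

theorem gg_eq (p : ℝ × ℝ) : Complex.measurableEquivRealProd (e p.1 + e p.2) = gg p := by
  rw [Complex.measurableEquivRealProd_apply]
  unfold gg e
  simp [Complex.exp_ofReal_mul_I_re, Complex.exp_ofReal_mul_I_im]

theorem volume_image_eq (x : ℂ) (Q : Set (ℝ × ℝ)) :
    volume ((fun p : ℝ × ℝ => x + e p.1 + e p.2) '' Q) = volume (gg '' Q) := by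
  have h1 : (fun p : ℝ × ℝ => x + e p.1 + e p.2) '' Q =
      (fun z => -x + z) ⁻¹' ((fun p : ℝ × ℝ => e p.1 + e p.2) '' Q) := by
    ext z
    simp only [mem_image, mem_preimage]
    constructor
    · rintro ⟨p, hp, rfl⟩
      exact ⟨p, hp, by ring⟩
    · rintro ⟨p, hp, h⟩
      exact ⟨p, hp, by rw [add_assoc, h]; ring⟩
  have h2 : volume ((fun p : ℝ × ℝ => x + e p.1 + e p.2) '' Q) =
      volume ((fun p : ℝ × ℝ => e p.1 + e p.2) '' Q) := by
    rw [h1, measure_preimage_add]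
  rw [h2]
  have h3 : (fun p : ℝ × ℝ => e p.1 + e p.2) '' Q =
      Complex.measurableEquivRealProd ⁻¹' (gg '' Q) := by
    ext z
    simp only [mem_image, mem_preimage]
    constructor
    · rintro ⟨p, hp, rfl⟩
      exact ⟨p, hp, (gg_eq p).symm⟩
    · rintro ⟨p, hp, h⟩
      refine ⟨p, hp, ?_⟩
      apply Complex.measurableEquivRealProd.injective
      rw [gg_eq, h]
  rw [h3]
  exact Complex.volume_preserving_equiv_real_prod.measure_preimage_equiv _

theorem areaLower : AreaLowerStmt := by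
  intro a b hab
  have hba : Real.sin (((a, b) : ℝ × ℝ).2 - ((a, b) : ℝ × ℝ).1) ≠ 0 := by
    show Real.sin (b - a) ≠ 0
    rw [← neg_sub, Real.sin_neg]; exact neg_ne_zero.2 hab
  obtain ⟨U, hU, hpU, hinj⟩ := gg_injOn (a, b) hba
  have hcont : Continuous (fun p : ℝ × ℝ => |Real.sin (p.2 - p.1)|) := by fun_prop
  have hV : IsOpen {p : ℝ × ℝ | |Real.sin (b - a)| / 2 < |Real.sin (p.2 - p.1)|} :=
    isOpen_lt continuous_const hcont
  have hpV : ((a, b) : ℝ × ℝ) ∈ {p : ℝ × ℝ | |Real.sin (b - a)| / 2 < |Real.sin (p.2 - p.1)|} := by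
    have : 0 < |Real.sin (b - a)| := abs_pos.2 hba
    show |Real.sin (b - a)| / 2 < |Real.sin (b - a)|
    linarith
  obtain ⟨ρ, hρ, hball⟩ := Metric.isOpen_iff.1 (hU.inter hV) (a, b) ⟨hpU, hpV⟩
  refine ⟨ρ, hρ, ENNReal.ofReal (|Real.sin (b - a)| / 2), ?_, ?_⟩
  · have : 0 < |Real.sin (b - a)| := abs_pos.2 hba
    simp only [ne_eq, ENNReal.ofReal_eq_zero, not_le]
    linarith
  · intro x Q hQ hQsub
    have hQUV : Q ⊆ U ∩ {p : ℝ × ℝ | |Real.sin (b - a)| / 2 < |Real.sin (p.2 - p.1)|} := by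
      refine fun p hp => hball ?_
      have := hQsub hp
      rw [← ball_prod_same, Real.ball_eq_Ioo, Real.ball_eq_Ioo]
      exact this
    rw [volume_image_eq]
    have h1 := lintegral_abs_det_fderiv_eq_addHaar_image (volume : Measure (ℝ × ℝ)) hQ
      (fun p _ => (hasStrictFDerivAt_gg p).hasFDerivAt.hasFDerivWithinAt)
      (hinj.mono (fun p hp => (hQUV hp).1))
    rw [← h1, ← setLIntegral_const]
    apply setLIntegral_mono' hQ
    intro p hp
    rw [det_gg']
    exact ENNReal.ofReal_le_ofReal (hQUV hp).2.le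

theorem sumNull : SumNullStmt := by
  intro N hN
  -- reduce to a measurable null set
  obtain ⟨N', hNN', hN'm, hN'0⟩ := exists_measurable_superset_of_null hN
  have hsin : ∀ᵐ p : ℝ × ℝ, Real.sin (p.1 - p.2) ≠ 0 := by
    have hm : MeasurableSet {p : ℝ × ℝ | Real.sin (p.1 - p.2) ≠ 0} := by
      have : Continuous (fun p : ℝ × ℝ => Real.sin (p.1 - p.2)) := by fun_prop
      exact (this.measurable (measurableSet_singleton 0)).compl
    rw [Measure.volume_eq_prod]
    rw [Measure.ae_prod_iff_ae_ae hm]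
    refine Eventually.of_forall fun a => ?_
    have hcount : ({b : ℝ | Real.sin (a - b) = 0}).Countable := by
      have : {b : ℝ | Real.sin (a - b) = 0} ⊆ range (fun n : ℤ => a - n * Real.pi) := by
        intro b hb
        obtain ⟨n, hn⟩ := Real.sin_eq_zero_iff.1 hb
        exact ⟨n, by simp only []; linarith⟩
      exact (countable_range _).mono this
    have := hcount.measure_zero (volume : Measure ℝ)
    rw [ae_iff]; simpa using this
  have hmeas : Measurable (fun p : ℝ × ℝ => e p.1 + e p.2) := by fun_prop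
  have hnull : volume {p : ℝ × ℝ | Real.sin (p.1 - p.2) ≠ 0 ∧ e p.1 + e p.2 ∈ N'} = 0 := by
    apply measure_null_of_locally_null
    rintro ⟨a, b⟩ ⟨hab, -⟩
    obtain ⟨ρ, hρ, c₀, hc₀, hQ⟩ := areaLower a b hab
    let B : Set (ℝ × ℝ) := Ioo (a - ρ) (a + ρ) ×ˢ Ioo (b - ρ) (b + ρ)
    let Q : Set (ℝ × ℝ) := B ∩ (fun p : ℝ × ℝ => e p.1 + e p.2) ⁻¹' N'
    have hB : IsOpen B := isOpen_Ioo.prod isOpen_Ioo
    have hQm : MeasurableSet Q := hB.measurableSet.inter (hmeas hN'm)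
    have h1 := hQ 0 Q hQm inter_subset_left
    have h2 : volume ((fun p : ℝ × ℝ => (0 : ℂ) + e p.1 + e p.2) '' Q) = 0 := by
      apply measure_mono_null _ hN'0
      rintro _ ⟨p, hp, rfl⟩
      have := hp.2
      simpa using this
    rw [h2] at h1
    have h3 : volume Q = 0 := by
      have := le_antisymm h1 bot_le
      rcases mul_eq_zero.1 this with h | h
      · exact absurd h hc₀
      · exact h
    refine ⟨{p : ℝ × ℝ | Real.sin (p.1 - p.2) ≠ 0 ∧ e p.1 + e p.2 ∈ N'} ∩ B, ?_, ?_⟩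
    · exact inter_mem_nhdsWithin _ (hB.mem_nhds (show ((a, b) : ℝ × ℝ) ∈ B from
        ⟨⟨by linarith, by linarith⟩, ⟨by linarith, by linarith⟩⟩))
    · have hsub : {p : ℝ × ℝ | Real.sin (p.1 - p.2) ≠ 0 ∧ e p.1 + e p.2 ∈ N'} ∩ B ⊆ Q := by
        rintro p ⟨hp1, hp2⟩
        exact ⟨hp2, hp1.2⟩
      exact measure_mono_null hsub h3
  have h' : ∀ᵐ p : ℝ × ℝ, ¬ (Real.sin (p.1 - p.2) ≠ 0 ∧ e p.1 + e p.2 ∈ N') := by
    rw [ae_iff]
    simpa using hnull
  filter_upwards [hsin, h'] with p h1 h2 h3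
  exact h2 ⟨h1, hNN' h3⟩

end Vale.Agent.P032.M
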