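import Vale.Agent.P032.M.Rec

/-!
P032, measurable chromatic number: maximal extendable open sets and the downward induction.
-/

open MeasureTheory Set Filter Topology
open scoped ENNReal

namespace Vale.Agent.P032.M

/-- `c` extends the family `D` almost everywhere. -/
def Ext {k : ℕ} (D : Fin k → Set ℂ) (c : ℂ → Fin k) : Prop :=
  ∀ i, ∀ᵐ x : ℂ, x ∈ D i → c x = i

/-- a nonempty open set has a point with any a.e. property. -/
theorem exists_of_ae {X : Type*} [TopologicalSpace X] [MeasurableSpace X] {μ : Measure X}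
    [μ.IsOpenPosMeasure] {V : Set X} (hV : IsOpen V) (hne : V.Nonempty) {Q : X → Prop}
    (h : ∀ᵐ x ∂μ, Q x) : ∃ x ∈ V, Q x := by
  by_contra hc
  push Not at hc
  have : μ V = 0 := measure_mono_null (fun x hx => hc x hx) (ae_iff.1 h)
  exact (hV.measure_pos μ hne).ne' this

theorem exists_e_of_norm {z : ℂ} (hz : ‖z‖ = 1) : ∃ t : ℝ, z = e t := by
  refine ⟨Complex.arg z, ?_⟩
  unfold e
  have := Complex.norm_mul_exp_arg_mul_I z
  rw [hz] at this
  simpa using this.symm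

theorem Ext.unit {k : ℕ} {D : Fin k → Set ℂ} (hD : ∀ i, IsOpen (D i)) {c : ℂ → Fin k}
    (hp : Proper c) (hE : Ext D c) (i : Fin k) : ∀ x ∈ D i, ∀ y ∈ D i, dist x y ≠ 1 := by
  intro x hx y hy hd
  obtain ⟨t0, ht0⟩ := exists_e_of_norm (z := y - x) (by rw [← dist_eq_norm, dist_comm, hd])
  have h1 : ∀ᵐ x : ℂ, ∀ᵐ t : ℝ, x ∈ D i → x + e t ∉ D i := by
    filter_upwards [hp, hE i, ae_shift (hE i)] with x h1 h2 h3
    filter_upwards [h1, h3] with t g1 g3 hx ht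
    exact g1 ((g3 ht).trans (h2 hx).symm)
  have hcont : Continuous (fun p : ℂ × ℝ => p.1 + e p.2) := by
    have := continuous_e
    fun_prop
  have hopen : IsOpen ({p : ℂ × ℝ | p.1 ∈ D i} ∩ {p : ℂ × ℝ | p.1 + e p.2 ∈ D i}) :=
    ((hD i).preimage continuous_fst).inter ((hD i).preimage hcont)
  have hmem : ((x, t0) : ℂ × ℝ) ∈ ({p : ℂ × ℝ | p.1 ∈ D i} ∩ {p : ℂ × ℝ | p.1 + e p.2 ∈ D i}) := by
    refine ⟨hx, ?_⟩
    show x + e t0 ∈ D i
    rw [← ht0]; simpa using hy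
  obtain ⟨U, V, hU, hV, hxU, htV, hUV⟩ := isOpen_prod_iff.1 hopen x t0 hmem
  obtain ⟨x', hx'U, hx'⟩ := exists_of_ae hU ⟨x, hxU⟩ h1
  obtain ⟨t', ht'V, ht'⟩ := exists_of_ae hV ⟨t0, htV⟩ hx'
  have := hUV (show ((x', t') : ℂ × ℝ) ∈ U ×ˢ V from ⟨hx'U, ht'V⟩)
  exact ht' this.1 this.2

theorem Ext.disj {k : ℕ} {D : Fin k → Set ℂ} (hD : ∀ i, IsOpen (D i)) {c : ℂ → Fin k}
    (hE : Ext D c) (i j : Fin k) (hij : i ≠ j) : Disjoint (D i) (D j) := by
  rw [Set.disjoint_iff_inter_eq_empty]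
  by_contra hne
  have hne' := nonempty_iff_ne_empty.2 hne
  have h : ∀ᵐ x : ℂ, (x ∈ D i → c x = i) ∧ (x ∈ D j → c x = j) := by
    filter_upwards [hE i, hE j] with x h1 h2
    exact ⟨h1, h2⟩
  obtain ⟨x, hx, h1, h2⟩ := exists_of_ae ((hD i).inter (hD j)) hne' h
  exact hij ((h1 hx.1).symm.trans (h2 hx.2))

section greedy

open Classical in
/-- greedy selection of constraints -/
noncomputable def sel {k : ℕ} (b : ℕ → Set ℂ) (q : ℕ → Fin k) : ℕ → Set ℕ
  | 0 => ∅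
  | n + 1 => if ∃ c : ℂ → Fin k, Measurable c ∧ Proper c ∧
      ∀ j ∈ sel b q n ∪ {n}, ∀ᵐ x : ℂ, x ∈ b j → c x = q j then sel b q n ∪ {n} else sel b q n

theorem sel_mono_succ {k : ℕ} (b : ℕ → Set ℂ) (q : ℕ → Fin k) (n : ℕ) :
    sel b q n ⊆ sel b q (n + 1) := by
  classical
  rw [sel]
  split_ifs
  · exact subset_union_left
  · exact Subset.rfl

theorem sel_mono {k : ℕ} (b : ℕ → Set ℂ) (q : ℕ → Fin k) : Monotone (sel b q) :=
  monotone_nat_of_le_succ (sel_mono_succ b q)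

theorem sel_extend {k : ℕ} (b : ℕ → Set ℂ) (q : ℕ → Fin k)
    (h0 : ∃ c : ℂ → Fin k, Measurable c ∧ Proper c) (n : ℕ) :
    ∃ c : ℂ → Fin k, Measurable c ∧ Proper c ∧
      ∀ j ∈ sel b q n, ∀ᵐ x : ℂ, x ∈ b j → c x = q j := by
  classical
  induction n with
  | zero =>
    obtain ⟨c, hc, hp⟩ := h0
    exact ⟨c, hc, hp, fun j hj => by simp [sel] at hj⟩
  | succ n ih =>
    by_cases h : ∃ c : ℂ → Fin k, Measurable c ∧ Proper c ∧
      ∀ j ∈ sel b q n ∪ {n}, ∀ᵐ x : ℂ, x ∈ b j → c x = q j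
    · rw [sel, if_pos h]; exact h
    · rw [sel, if_neg h]; exact ih

theorem sel_mem {k : ℕ} (b : ℕ → Set ℂ) (q : ℕ → Fin k) {c : ℂ → Fin k} (hc : Measurable c)
    (hp : Proper c) (h : ∀ n, ∀ j ∈ sel b q n, ∀ᵐ x : ℂ, x ∈ b j → c x = q j) {n : ℕ}
    (hn : ∀ᵐ x : ℂ, x ∈ b n → c x = q n) : n ∈ sel b q (n + 1) := by
  classical
  have : ∃ c : ℂ → Fin k, Measurable c ∧ Proper c ∧
      ∀ j ∈ sel b q n ∪ {n}, ∀ᵐ x : ℂ, x ∈ b j → c x = q j := by
    refine ⟨c, hc, hp, ?_⟩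
    rintro j (hj | hj)
    · exact h n j hj
    · rw [mem_singleton_iff] at hj
      subst hj
      exact hn
  rw [sel, if_pos this]
  exact Or.inr rfl

/-- Existence of a maximal extendable family of open sets. -/
theorem exists_maximal (hL : LimitStmt) {k : ℕ} (h0 : ∃ c : ℂ → Fin k, Measurable c ∧ Proper c) :
    ∃ D : Fin k → Set ℂ, (∀ i, IsOpen (D i)) ∧
      (∃ c : ℂ → Fin k, Measurable c ∧ Proper c ∧ Ext D c) ∧
      ∀ c : ℂ → Fin k, Measurable c → Proper c → Ext D c → ∀ V : Set ℂ, IsOpen V → V.Nonempty →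
        (∀ i, Disjoint V (D i)) → ∀ i, ¬ ∀ᵐ x : ℂ, x ∈ V → c x = i := by
  classical
  have hk : 0 < k := by
    obtain ⟨c, _, _⟩ := h0
    exact (Nat.zero_le _).trans_lt (c 0).2
  haveI : NeZero k := ⟨hk.ne'⟩
  -- a countable basis
  obtain ⟨bs, hbs⟩ : ∃ bs : ℕ → Set ℂ, (∀ n, IsOpen (bs n)) ∧
      ∀ V : Set ℂ, IsOpen V → V.Nonempty → ∃ n, (bs n).Nonempty ∧ bs n ⊆ V := by
    have hcount := TopologicalSpace.countable_countableBasis ℂ
    have hne : (TopologicalSpace.countableBasis ℂ).Nonempty := by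
      obtain ⟨v, hv, _⟩ := (TopologicalSpace.isBasis_countableBasis ℂ).exists_subset_of_mem_open
        (mem_univ (0 : ℂ)) isOpen_univ
      exact ⟨v, hv⟩
    obtain ⟨f, hf⟩ := hcount.exists_eq_range hne
    refine ⟨f, fun n => ?_, fun V hV hVne => ?_⟩
    · exact (TopologicalSpace.isBasis_countableBasis ℂ).isOpen (hf ▸ mem_range_self n)
    · obtain ⟨x, hx⟩ := hVne
      obtain ⟨v, hv, hxv, hvV⟩ :=
        (TopologicalSpace.isBasis_countableBasis ℂ).exists_subset_of_mem_open hx hV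
      rw [hf] at hv
      obtain ⟨n, rfl⟩ := hv
      exact ⟨n, ⟨x, hxv⟩, hvV⟩
  obtain ⟨hbo, hbV⟩ := hbs
  -- enumerate pairs (basis set, colour)
  let b : ℕ → Set ℂ := fun n => bs (n.unpair.1)
  let q : ℕ → Fin k := fun n => Fin.ofNat k (n.unpair.2)
  have hpair : ∀ (n : ℕ) (i : Fin k), b (Nat.pair n i) = bs n ∧ q (Nat.pair n i) = i := by
    intro n i
    refine ⟨by simp [b], ?_⟩
    simp only [q, Nat.unpair_pair]
    ext
    simp [Fin.ofNat, Nat.mod_eq_of_lt i.2]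
  choose cn hcn hpn hen using sel_extend b q h0
  obtain ⟨c', hc', hp', hA, -⟩ := hL k cn hcn hpn
  have hsel : ∀ n, ∀ j ∈ sel b q n, ∀ᵐ x : ℂ, x ∈ b j → c' x = q j := by
    intro n j hj
    apply hA (b j) (q j) (hbo _).measurableSet
    filter_upwards [eventually_ge_atTop n] with N hN
    exact hen N j (sel_mono b q hN hj)
  let D : Fin k → Set ℂ := fun i => ⋃ j ∈ {j : ℕ | (∃ n, j ∈ sel b q n) ∧ q j = i}, b j
  have hDE : ∀ c : ℂ → Fin k, Ext D c ↔ ∀ n, ∀ j ∈ sel b q n, ∀ᵐ x : ℂ, x ∈ b j → c x = q j := by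
    intro c
    constructor
    · intro hE n j hj
      filter_upwards [hE (q j)] with x hx hxb
      apply hx
      exact mem_biUnion (show j ∈ {j' : ℕ | (∃ n, j' ∈ sel b q n) ∧ q j' = q j} from ⟨⟨n, hj⟩, rfl⟩) hxb
    · intro h i
      have : ∀ᵐ x : ℂ, ∀ j : ℕ, (∃ n, j ∈ sel b q n) → x ∈ b j → c x = q j := by
        rw [ae_all_iff]
        intro j
        by_cases hj : ∃ n, j ∈ sel b q n
        · obtain ⟨n, hn⟩ := hj
          filter_upwards [h n j hn] with x hx _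
          exact hx
        · exact Eventually.of_forall fun x h => absurd h hj
      filter_upwards [this] with x hx hxD
      simp only [D, mem_iUnion] at hxD
      obtain ⟨j, ⟨hj, hqj⟩, hxb⟩ := hxD
      rw [hx j hj hxb, hqj]
  refine ⟨D, fun i => isOpen_biUnion fun j _ => hbo _, ⟨c', hc', hp', (hDE c').2 hsel⟩, ?_⟩
  intro c hc hp hE V hV hVne hdisj i hmono
  obtain ⟨n, hne, hnV⟩ := hbV V hV hVne
  have hmem : Nat.pair n i ∈ sel b q (Nat.pair n i + 1) := by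
    apply sel_mem b q hc hp ((hDE c).1 hE)
    rw [(hpair n i).1, (hpair n i).2]
    filter_upwards [hmono] with x hx hxb
    exact hx (hnV hxb)
  have hsub : bs n ⊆ D i := by
    intro x hx
    refine mem_biUnion (show Nat.pair n i ∈ {j : ℕ | (∃ n, j ∈ sel b q n) ∧ q j = i} from
      ⟨⟨_, hmem⟩, (hpair n i).2⟩) ?_
    rw [(hpair n i).1]; exact hx
  obtain ⟨x, hx⟩ := hne
  exact Set.disjoint_left.1 (hdisj i) (hnV hx) (hsub hx)

end greedy

end Vale.Agent.P032.M
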