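import Vale.Agent.P032.M.Fub

/-!
P032, measurable chromatic number: the recolouring step.
-/

open MeasureTheory Set Filter Topology
open scoped ENNReal

namespace Vale.Agent.P032.M

open Classical in
/-- The recoloured colouring. -/
noncomputable def recol {k : ℕ} (c f : ℂ → Fin k) (i : Fin k) (Z : Set ℂ) : ℂ → Fin k :=
  fun x => if x ∈ Z then i else if c x = i ∧ Sees Z x then f x else c x

theorem measurable_recol {k : ℕ} {c f : ℂ → Fin k} (hc : Measurable c) (hf : Measurable f)
    (i : Fin k) {Z : Set ℂ} (hZ : MeasurableSet Z) : Measurable (recol c f i Z) := by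
  classical
  unfold recol
  refine Measurable.ite hZ measurable_const (Measurable.ite ?_ hf hc)
  exact (hc (measurableSet_singleton i)).inter (measurableSet_sees hZ)

theorem recol_proper {k : ℕ} {c f : ℂ → Fin k} (hc : Measurable c) (hf : Measurable f)
    (hp : Proper c) {i m : Fin k} {Z : Set ℂ} (hZ : MeasurableSet Z)
    (hZm : ∀ x ∈ Z, c x = m)
    (hfree : ∀ᵐ x : ℂ, c x = i → Sees Z x → (f x ≠ i ∧ ¬ Sees (c ⁻¹' {f x}) x)) :
    Proper (recol c f i Z) := by
  classical
  -- (B) for a.e. `x` to be recoloured, a.e. neighbour does not have colour `f x`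
  have hB : ∀ᵐ x : ℂ, ∀ᵐ t : ℝ, (c x = i → Sees Z x → (f x ≠ i ∧ c (x + e t) ≠ f x)) := by
    filter_upwards [hfree] with x hx
    by_cases h1 : c x = i
    · by_cases h2 : Sees Z x
      · obtain ⟨h3, h4⟩ := hx h1 h2
        filter_upwards [not_sees h4] with t ht _ _
        exact ⟨h3, ht⟩
      · exact Eventually.of_forall fun t _ h => absurd h h2
    · exact Eventually.of_forall fun t h => absurd h h1
  have hBm : MeasurableSet {p : ℂ × ℂ | c p.1 = i → Sees Z p.1 → (f p.1 ≠ i ∧ c p.2 ≠ f p.1)} := by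
    have e1 : MeasurableSet {p : ℂ × ℂ | c p.1 = i} :=
      (hc.comp measurable_fst) (measurableSet_singleton i)
    have e2 : MeasurableSet {p : ℂ × ℂ | Sees Z p.1} := measurable_fst (measurableSet_sees hZ)
    have e3 : MeasurableSet {p : ℂ × ℂ | f p.1 = i} :=
      (hf.comp measurable_fst) (measurableSet_singleton i)
    have e4 : MeasurableSet {p : ℂ × ℂ | c p.2 = f p.1} :=
      measurableSet_eq_fun (hc.comp measurable_snd) (hf.comp measurable_fst)
    have : {p : ℂ × ℂ | c p.1 = i → Sees Z p.1 → (f p.1 ≠ i ∧ c p.2 ≠ f p.1)}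
        = {p : ℂ × ℂ | c p.1 = i}ᶜ ∪ ({p : ℂ × ℂ | Sees Z p.1}ᶜ ∪
          ({p : ℂ × ℂ | f p.1 = i}ᶜ ∩ {p : ℂ × ℂ | c p.2 = f p.1}ᶜ)) := by
      ext p
      simp only [mem_setOf_eq, mem_union, mem_compl_iff, mem_inter_iff]
      tauto
    rw [this]
    exact e1.compl.union (e2.compl.union (e3.compl.inter e4.compl))
  have hB' := ae_swap (P := fun x y => c x = i → Sees Z x → (f x ≠ i ∧ c y ≠ f x)) hBm hB
  -- (C) points of colour `i` which are not recoloured do not see `Z`
  have hC : ∀ᵐ x : ℂ, ∀ᵐ t : ℝ, (c x = i → ¬ Sees Z x → x + e t ∉ Z) := by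
    refine Eventually.of_forall fun x => ?_
    by_cases h2 : Sees Z x
    · exact Eventually.of_forall fun t _ h => absurd h2 h
    · filter_upwards [not_sees h2] with t ht _ _
      exact ht
  have hCm : MeasurableSet {p : ℂ × ℂ | c p.1 = i → ¬ Sees Z p.1 → p.2 ∉ Z} := by
    have e1 : MeasurableSet {p : ℂ × ℂ | c p.1 = i} :=
      (hc.comp measurable_fst) (measurableSet_singleton i)
    have e2 : MeasurableSet {p : ℂ × ℂ | Sees Z p.1} := measurable_fst (measurableSet_sees hZ)
    have e3 : MeasurableSet {p : ℂ × ℂ | p.2 ∈ Z} := measurable_snd hZ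
    have : {p : ℂ × ℂ | c p.1 = i → ¬ Sees Z p.1 → p.2 ∉ Z}
        = {p : ℂ × ℂ | c p.1 = i}ᶜ ∪ ({p : ℂ × ℂ | Sees Z p.1} ∪ {p : ℂ × ℂ | p.2 ∈ Z}ᶜ) := by
      ext p
      simp only [mem_setOf_eq, mem_union, mem_compl_iff]
      tauto
    rw [this]
    exact e1.compl.union (e2.union e3.compl)
  have hC' := ae_swap (P := fun x y => c x = i → ¬ Sees Z x → y ∉ Z) hCm hC
  unfold Proper
  filter_upwards [hp, hB, hB', hC, hC'] with x h1 h2 h3 h4 h5
  filter_upwards [h1, h2, h3, h4, h5] with t g1 g2 g3 g4 g5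
  unfold recol
  by_cases xZ : x ∈ Z
  · by_cases yZ : x + e t ∈ Z
    · exact absurd ((hZm _ yZ).trans (hZm _ xZ).symm) g1
    · by_cases yW : c (x + e t) = i ∧ Sees Z (x + e t)
      · simp only [xZ, yZ, yW, if_true, if_false, and_self]
        exact (g3 yW.1 yW.2).1
      · simp only [xZ, yZ, yW, if_true, if_false]
        intro hci
        by_cases hs : Sees Z (x + e t)
        · exact yW ⟨hci, hs⟩
        · exact g5 hci hs xZ
  · by_cases xW : c x = i ∧ Sees Z x
    · by_cases yZ : x + e t ∈ Z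
      · simp only [xZ, yZ, xW, if_true, if_false, and_self]
        exact fun h => (g2 xW.1 xW.2).1 h.symm
      · by_cases yW : c (x + e t) = i ∧ Sees Z (x + e t)
        · exact absurd (yW.1.trans xW.1.symm) g1
        · simp only [xZ, yZ, xW, yW, if_true, if_false, and_self]
          exact (g2 xW.1 xW.2).2
    · by_cases yZ : x + e t ∈ Z
      · simp only [xZ, yZ, xW, if_true, if_false]
        intro hci
        by_cases hs : Sees Z x
        · exact xW ⟨hci.symm, hs⟩
        · exact g4 hci.symm hs yZ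
      · by_cases yW : c (x + e t) = i ∧ Sees Z (x + e t)
        · simp only [xZ, yZ, xW, yW, if_true, if_false, and_self]
          exact fun h => (g3 yW.1 yW.2).2 h.symm
        · simp only [xZ, yZ, xW, yW, if_false]
          exact g1

end Vale.Agent.P032.M
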